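import Vale.Agent.N042.Root
import Vale.Agent.P042U.Red

set_option autoImplicit false

/-!
P042, constants uniform in the polynomial: the reduction to auxiliary polynomials of content one,
with the size of the modulus.
-/

namespace Vale.Agent.N042

open Polynomial Vale.Agent.P042 Vale.Agent.P042U

/-- The local statement at one prime, with the exact content. -/
theorem local_q (h : ℤ[X]) (hint : Intersective h) (R : ℤ) (hR0 : R ≠ 0) (hR : RootCtl h R) :
    ∀ p : ℕ, p.Prime → ∃ (m s : ℕ) (a : ℕ → ℤ), 1 ≤ m ∧ m ≤ h.natDegree ∧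
      (p : ℤ) ^ s ∣ R ∧
      (∀ v w : ℕ, v ≤ w → (p : ℤ) ^ v ∣ a w - a v) ∧
      (∀ (v : ℕ) (r d : ℤ), (p : ℤ) ^ v ∣ r - a v → ¬ (p : ℤ) ∣ d →
        (∀ j, (p : ℤ) ^ (v * m) ∣ (h.comp (C r + C ((p : ℤ) ^ v * d) * X)).coeff j) ∧
        (s ≤ v → ∀ j, (p : ℤ) ^ (v * m + s) ∣ (h.comp (C r + C ((p : ℤ) ^ v * d) * X)).coeff j) ∧
        (∀ (u : ℤ) (H : ℤ[X]), ¬ (p : ℤ) ∣ u →
          C ((p : ℤ) ^ (v * m) * u) * H = h.comp (C r + C ((p : ℤ) ^ v * d) * X) →
          ∀ e : ℕ, (∀ j : ℕ, 1 ≤ j → (p : ℤ) ^ e ∣ H.coeff j) → e ≤ s)) := by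
  intro p hp
  have : Fact p.Prime := ⟨hp⟩
  obtain ⟨z, hz⟩ := aux_padic_root h hint p
  obtain ⟨m, hm1, hm2, G, hG, hGR⟩ := hR p z hz
  have hG0 : G.coeff 0 ≠ 0 := by
    intro h0
    rw [h0, zero_dvd_iff] at hGR
    exact hR0 (by exact_mod_cast hGR)
  obtain ⟨s, hs⟩ : ∃ s : ℕ, s = (G.coeff 0).valuation := ⟨_, rfl⟩
  have hsu := PadicInt.unitCoeff_spec hG0
  rw [← hs] at hsu
  have hsG : (p : ℤ_[p]) ^ s ∣ G.coeff 0 := by
    rw [hsu]
    exact dvd_mul_left _ _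
  have hGs : G.coeff 0 ∣ (p : ℤ_[p]) ^ s := by
    rw [hsu]
    exact Units.mul_left_dvd.2 dvd_rfl
  have hpz : (p : ℤ_[p]) ≠ 0 := by exact_mod_cast hp.ne_zero
  refine ⟨m, s, fun v => (z.appr v : ℤ), hm1, hm2, ?_, ?_, ?_⟩
  · rw [← PadicInt.pow_p_dvd_int_iff]
    exact hsG.trans hGR
  · intro v w hvw
    have h1 := PadicInt.dvd_appr_sub_appr z v w hvw
    have h2 := PadicInt.appr_mono z hvw
    have h3 : (((p ^ v : ℕ)) : ℤ) ∣ ((z.appr w - z.appr v : ℕ) : ℤ) :=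
      Int.natCast_dvd_natCast.2 h1
    rw [Nat.cast_sub h2] at h3
    simpa only [Nat.cast_pow] using h3
  · intro v r d hr hd
    have hz1 : (p : ℤ_[p]) ^ v ∣ z - (z.appr v : ℤ_[p]) :=
      Ideal.mem_span_singleton.1 (PadicInt.appr_spec v z)
    have hr1 : (p : ℤ_[p]) ^ v ∣ ((r - (z.appr v : ℤ) : ℤ) : ℤ_[p]) :=
      (PadicInt.pow_p_dvd_int_iff v _).2 hr
    obtain ⟨w, hw⟩ : (p : ℤ_[p]) ^ v ∣ (r : ℤ_[p]) - z := by
      have := dvd_sub hr1 hz1
      convert this using 1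
      push_cast
      ring
    have hrw : (r : ℤ_[p]) = z + (p : ℤ_[p]) ^ v * w := by rw [← hw]; ring
    obtain ⟨φ, hφ⟩ : ∃ φ : ℤ →+* ℤ_[p], φ = Int.castRingHom ℤ_[p] := ⟨_, rfl⟩
    have hφi : ∀ x : ℤ, φ x = (x : ℤ_[p]) := fun x => by rw [hφ]; rfl
    rw [← hφ] at hz hG
    have hkey : (h.comp (C r + C ((p : ℤ) ^ v * d) * X)).map φ =
        C ((p : ℤ_[p]) ^ (v * m)) * ((C w + C (d : ℤ_[p]) * X) ^ m *
          G.comp (C ((p : ℤ_[p]) ^ v) * (C w + C (d : ℤ_[p]) * X))) := by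
      have h1 : (h.comp (C r + C ((p : ℤ) ^ v * d) * X)).map φ =
          (taylor z (h.map φ)).comp (C ((p : ℤ_[p]) ^ v) * (C w + C (d : ℤ_[p]) * X)) := by
        rw [taylor_apply, comp_assoc, Polynomial.map_comp]
        congr 1
        simp only [Polynomial.map_add, Polynomial.map_mul, map_C, map_X, add_comp, X_comp, C_comp,
          hφi, Int.cast_pow, Int.cast_natCast, hrw, C_add, C_mul]
        ring
      rw [h1, hG, mul_comp, pow_comp, X_comp, mul_pow, ← C_pow, ← pow_mul]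
      ring
    have h2 : ∀ j, (((h.comp (C r + C ((p : ℤ) ^ v * d) * X)).coeff j : ℤ) : ℤ_[p]) =
        ((h.comp (C r + C ((p : ℤ) ^ v * d) * X)).map φ).coeff j := fun j => by
      rw [coeff_map, hφi]
    refine ⟨fun j => ?_, fun hsv j => ?_, ?_⟩
    · rw [← PadicInt.pow_p_dvd_int_iff, h2, hkey, coeff_C_mul]
      exact dvd_mul_right _ _
    · have h3 : C ((p : ℤ_[p]) ^ s) ∣
          G.comp (C ((p : ℤ_[p]) ^ v) * (C w + C (d : ℤ_[p]) * X)) := by
        conv_rhs => rw [← divX_mul_X_add G]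
        rw [add_comp, mul_comp, X_comp, C_comp]
        refine dvd_add (Dvd.dvd.mul_left (Dvd.dvd.mul_right ?_ _) _) (map_dvd C hsG)
        exact map_dvd C (pow_dvd_pow _ hsv)
      obtain ⟨K, hK⟩ := h3
      rw [← PadicInt.pow_p_dvd_int_iff, h2, hkey, hK, coeff_C_mul, pow_add, mul_left_comm,
        coeff_C_mul]
      exact mul_dvd_mul_left _ (dvd_mul_right _ _)
    · intro u H hu hH e he
      have hp0 : (C ((p : ℤ_[p]) ^ (v * m)) : ℤ_[p][X]) ≠ 0 := by
        rw [Ne, C_eq_zero]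
        exact pow_ne_zero _ hpz
      have h3 : C (u : ℤ_[p]) * H.map φ = (C w + C (d : ℤ_[p]) * X) ^ m *
          G.comp (C ((p : ℤ_[p]) ^ v) * (C w + C (d : ℤ_[p]) * X)) := by
        apply mul_left_cancel₀ hp0
        rw [← hkey, ← hH, ← mul_assoc, ← C_mul, Polynomial.map_mul, map_C, hφi]
        simp only [Int.cast_mul, Int.cast_pow, Int.cast_natCast]
      have hunit : ∀ x : ℤ, ¬ (p : ℤ) ∣ x → IsUnit (x : ℤ_[p]) := by
        intro x hx
        rw [PadicInt.isUnit_iff, PadicInt.norm_intCast_eq_one_iff, isCoprime_comm]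
        exact (Nat.prime_iff_prime_int.1 hp).coprime_iff_not_dvd.2 hx
      obtain ⟨di, hdi⟩ := (hunit d hd).exists_right_inv
      have h4 := congrArg (fun q : ℤ_[p][X] => (q.comp (C di * (X - C w))).coeff m) h3
      have h5 : (C w + C (d : ℤ_[p]) * X).comp (C di * (X - C w)) = X := by
        simp only [add_comp, mul_comp, C_comp, X_comp]
        rw [← mul_assoc, ← C_mul, hdi, C_1]
        ring
      obtain ⟨K, hK⟩ : C ((p : ℤ_[p]) ^ e) ∣ H.map φ - C ((H.map φ).coeff 0) := by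
        rw [C_dvd_iff_dvd_coeff]
        intro j
        rcases Nat.eq_zero_or_pos j with hj | hj
        · subst hj
          rw [coeff_sub, coeff_C_zero, sub_self]
          exact dvd_zero _
        · rw [coeff_sub, coeff_C_of_ne_zero hj.ne', sub_zero, coeff_map, hφi,
            PadicInt.pow_p_dvd_int_iff]
          exact he j hj
      have hK' : H.map φ = C ((H.map φ).coeff 0) + C ((p : ℤ_[p]) ^ e) * K := by
        rw [← hK]; ring
      have hm0 : m ≠ 0 := by omega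
      simp only [mul_comp, pow_comp, comp_assoc] at h4
      rw [h5] at h4
      rw [hK'] at h4
      simp only [C_comp, add_comp, mul_comp, coeff_C_mul, coeff_add, coeff_C_of_ne_zero hm0,
        zero_add] at h4
      rw [coeff_X_pow_mul', if_pos le_rfl, Nat.sub_self, coeff_zero_eq_eval_zero, eval_comp,
        eval_mul, eval_C, eval_X, mul_zero, ← coeff_zero_eq_eval_zero] at h4
      have h6 : (p : ℤ_[p]) ^ e ∣ G.coeff 0 := by
        rw [← h4]
        exact Dvd.dvd.mul_left (dvd_mul_right _ _) _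
      have h7 := h6.trans hGs
      exact (pow_dvd_pow_iff hpz (PadicInt.prime_p.not_isUnit)).1 h7

/-- auxiliary polynomials with the exact content `M` along the multiples of `d0` -/
theorem aux_q (h : ℤ[X]) (hint : Intersective h) (R0 : ℤ) (hR0 : R0 ≠ 0) (hR : RootCtl h R0) :
    ∃ (lam : ℕ → ℕ) (r : ℕ → ℤ) (H : ℕ → ℤ[X]) (M d0 : ℕ), AuxData h lam r H M ∧ 1 ≤ d0 ∧
      d0 = R0.natAbs ∧ M ≤ d0 ∧ ∀ e : ℕ, 1 ≤ e → ∀ j, (M : ℤ) ∣ (H (d0 * e)).coeff j := by
  have HL := local_q h hint R0 hR0 hR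
  have HL' : ∀ p : ℕ, ∃ (m s : ℕ) (a : ℕ → ℤ), p.Prime → (1 ≤ m ∧ m ≤ h.natDegree ∧
      (p : ℤ) ^ s ∣ R0 ∧
      (∀ v w : ℕ, v ≤ w → (p : ℤ) ^ v ∣ a w - a v) ∧
      (∀ (v : ℕ) (r d : ℤ), (p : ℤ) ^ v ∣ r - a v → ¬ (p : ℤ) ∣ d →
        (∀ j, (p : ℤ) ^ (v * m) ∣ (h.comp (C r + C ((p : ℤ) ^ v * d) * X)).coeff j) ∧
        (s ≤ v → ∀ j, (p : ℤ) ^ (v * m + s) ∣ (h.comp (C r + C ((p : ℤ) ^ v * d) * X)).coeff j) ∧
        (∀ (u : ℤ) (H : ℤ[X]), ¬ (p : ℤ) ∣ u →
          C ((p : ℤ) ^ (v * m) * u) * H = h.comp (C r + C ((p : ℤ) ^ v * d) * X) →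
          ∀ e : ℕ, (∀ j : ℕ, 1 ≤ j → (p : ℤ) ^ e ∣ H.coeff j) → e ≤ s))) := by
    intro p
    by_cases hp : p.Prime
    · obtain ⟨m, s, a, hma⟩ := HL p hp
      exact ⟨m, s, a, fun _ => hma⟩
    · exact ⟨0, 0, fun _ => 0, fun hp' => absurd hp' hp⟩
  choose m s a hma using HL'
  have HC : ∀ d : ℕ, ∃ r : ℤ, 1 ≤ d → (-(d : ℤ) < r ∧ r ≤ 0 ∧
      ∀ p : ℕ, p.Prime → (p : ℤ) ^ (d.factorization p) ∣ r - a p (d.factorization p)) := by
    intro d
    by_cases hd : 1 ≤ d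
    · obtain ⟨r, hr⟩ := aux_crt a d hd
      exact ⟨r, fun _ => hr⟩
    · exact ⟨0, fun hd' => absurd hd' hd⟩
  choose r hr using HC
  have hdec : ∀ d : ℕ, 1 ≤ d → ∀ p : ℕ, p.Prime →
      ∃ d' : ℤ, ¬ (p : ℤ) ∣ d' ∧ (d : ℤ) = (p : ℤ) ^ (d.factorization p) * d' := by
    intro d hd p hp
    refine ⟨((d / p ^ (d.factorization p) : ℕ) : ℤ), ?_, ?_⟩
    · intro hdv
      exact Nat.not_dvd_ordCompl hp (by omega : d ≠ 0) (by exact_mod_cast hdv)
    · exact_mod_cast (Nat.ordProj_mul_ordCompl_eq_self d p).symm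
  have hcoef : ∀ d : ℕ, 1 ≤ d → C ((auxLam m d : ℕ) : ℤ) ∣ h.comp (C (r d) + C (d : ℤ) * X) := by
    intro d hd
    rw [C_dvd_iff_dvd_coeff]
    intro j
    refine dvd_of_pp (auxLam_ne_zero m d) fun p hp => ?_
    obtain ⟨d', hd', hdd⟩ := hdec d hd p hp
    have h2 := ((hma p hp).2.2.2.2 (d.factorization p) (r d) d' ((hr d hd).2.2 p hp) hd').1 j
    rw [← hdd] at h2
    rwa [auxLam_factorization, mul_comm]
  have HH : ∀ d : ℕ, ∃ H : ℤ[X], 1 ≤ d →
      C ((auxLam m d : ℕ) : ℤ) * H = h.comp (C (r d) + C (d : ℤ) * X) := by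
    intro d
    by_cases hd : 1 ≤ d
    · obtain ⟨H, hH⟩ := hcoef d hd
      exact ⟨H, fun _ => hH.symm⟩
    · exact ⟨0, fun hd' => absurd hd' hd⟩
  choose H hH using HH
  obtain ⟨d0, hd0⟩ : ∃ d0 : ℕ, d0 = R0.natAbs := ⟨_, rfl⟩
  have hd01 : 1 ≤ d0 := by
    rw [hd0]
    exact Int.natAbs_pos.2 hR0
  have hsd : ∀ p : ℕ, p.Prime → s p ≤ d0.factorization p := by
    intro p hp
    have h1 := Int.natAbs_dvd_natAbs.2 (hma p hp).2.2.1
    rw [Int.natAbs_pow, Int.natAbs_natCast, ← hd0] at h1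
    exact (hp.pow_dvd_iff_le_factorization (by omega)).1 h1
  -- the content `M = ∏ p ^ s p`
  obtain ⟨M, hM0, hM⟩ : ∃ M : ℕ, M ≠ 0 ∧ ∀ p : ℕ, p.Prime → M.factorization p = s p := by
    obtain ⟨f, hf⟩ : ∃ f : ℕ →₀ ℕ, f = Finsupp.onFinset d0.primeFactors
        (fun p => if p.Prime then s p else 0) (by
          intro p hp
          by_cases hpp : p.Prime
          · rw [if_pos hpp] at hp
            have h1 := hsd p hpp
            rw [← Nat.support_factorization, Finsupp.mem_support_iff]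
            omega
          · exact absurd (if_neg hpp) hp) := ⟨_, rfl⟩
    have hfp : ∀ q ∈ f.support, q.Prime := by
      intro q hq
      rw [hf] at hq
      exact Nat.prime_of_mem_primeFactors (Finsupp.support_onFinset_subset hq)
    refine ⟨f.prod (· ^ ·), ?_, fun p hp => ?_⟩
    · rw [Finsupp.prod]
      exact Finset.prod_ne_zero_iff.2 fun q hq => pow_ne_zero _ (hfp q hq).ne_zero
    · rw [Nat.prod_pow_factorization_eq_self hfp, hf, Finsupp.onFinset_apply, if_pos hp]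
  have hlam : ∀ d p : ℕ, ((auxLam m d : ℕ) : ℤ) = (p : ℤ) ^ (d.factorization p * m p) *
      ((auxLam m d / p ^ ((auxLam m d).factorization p) : ℕ) : ℤ) := by
    intro d p
    have := Nat.ordProj_mul_ordCompl_eq_self (auxLam m d) p
    rw [auxLam_factorization, mul_comm (m p)] at this ⊢
    exact_mod_cast this.symm
  have hu : ∀ d p : ℕ, p.Prime →
      ¬ (p : ℤ) ∣ ((auxLam m d / p ^ ((auxLam m d).factorization p) : ℕ) : ℤ) := by
    intro d p hp hdv
    exact Nat.not_dvd_ordCompl hp (auxLam_ne_zero m d) (by exact_mod_cast hdv)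
  refine ⟨auxLam m, r, H, M, d0, ⟨Nat.one_le_iff_ne_zero.2 hM0, hH, ?_, ?_, ?_, ?_, ?_⟩, hd01, hd0,
    ?_, ?_⟩
  · intro d q hd hq
    apply Nat.eq_of_factorization_eq (auxLam_ne_zero m _)
      (mul_ne_zero (auxLam_ne_zero m _) (auxLam_ne_zero m _))
    intro p
    rw [Nat.factorization_mul (auxLam_ne_zero m _) (auxLam_ne_zero m _), Finsupp.add_apply,
      auxLam_factorization, auxLam_factorization, auxLam_factorization,
      Nat.factorization_mul (by omega) (by omega), Finsupp.add_apply, mul_add]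
  · intro d hd
    constructor
    · rw [← Nat.factorization_le_iff_dvd (by omega) (auxLam_ne_zero m _)]
      intro p
      rw [auxLam_factorization]
      by_cases hp : p.Prime
      · have := (hma p hp).1
        nlinarith only [this]
      · rw [Nat.factorization_eq_zero_of_not_prime _ hp]
        exact Nat.zero_le _
    · rw [← Nat.factorization_le_iff_dvd (auxLam_ne_zero m _) (pow_ne_zero _ (by omega))]
      intro p
      rw [auxLam_factorization, Nat.factorization_pow, Finsupp.smul_apply, smul_eq_mul]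
      by_cases hp : p.Prime
      · exact Nat.mul_le_mul_right _ (hma p hp).2.1
      · rw [Nat.factorization_eq_zero_of_not_prime _ hp]
        simp
  · intro d hd
    exact ⟨(hr d hd).1, (hr d hd).2.1⟩
  · intro d q hd hq
    have hdq : 1 ≤ d * q := Nat.one_le_iff_ne_zero.2 (mul_ne_zero (by omega) (by omega))
    refine dvd_of_pp (by omega) fun p hp => ?_
    have h2 : d.factorization p ≤ (d * q).factorization p := by
      rw [Nat.factorization_mul (by omega) (by omega), Finsupp.add_apply]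
      exact Nat.le_add_right _ _
    have h3 := (hr d hd).2.2 p hp
    have h4 := (hr (d * q) hdq).2.2 p hp
    have h5 := (hma p hp).2.2.2.1 _ _ h2
    have h7 := dvd_sub (dvd_add ((pow_dvd_pow _ h2).trans h4) h5) h3
    rw [sub_add_sub_cancel, sub_sub_sub_cancel_right] at h7
    exact h7
  · intro d hd g hg
    rw [← Int.natAbs_dvd_natAbs, Int.natAbs_natCast, Nat.dvd_iff_prime_pow_dvd_dvd]
    intro p e hp he
    obtain ⟨d', hd', hdd⟩ := hdec d hd p hp
    have h1 := ((hma p hp).2.2.2.2 (d.factorization p) (r d) d' ((hr d hd).2.2 p hp) hd').2.2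
      _ (H d) (hu d p hp) (by rw [← hlam d p, ← hdd]; exact hH d hd) e (by
        intro j hj
        have h2 : ((p ^ e : ℕ) : ℤ) ∣ g := Int.natCast_dvd.2 he
        rw [Nat.cast_pow] at h2
        exact h2.trans (hg j hj))
    rw [hp.pow_dvd_iff_le_factorization hM0, hM p hp]
    exact h1
  · refine Nat.le_of_dvd hd01 ?_
    rw [← Nat.factorization_le_iff_dvd hM0 (by omega)]
    intro p
    by_cases hp : p.Prime
    · rw [hM p hp]
      exact hsd p hp
    · rw [Nat.factorization_eq_zero_of_not_prime _ hp]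
      exact Nat.zero_le _
  · intro e he j
    have hd : 1 ≤ d0 * e := Nat.one_le_iff_ne_zero.2 (mul_ne_zero (by omega) (by omega))
    refine dvd_of_pp hM0 fun p hp => ?_
    obtain ⟨d', hd', hdd⟩ := hdec (d0 * e) hd p hp
    have h2 : s p ≤ (d0 * e).factorization p := by
      rw [Nat.factorization_mul (by omega) (by omega), Finsupp.add_apply]
      exact (hsd p hp).trans (Nat.le_add_right _ _)
    have h1 := ((hma p hp).2.2.2.2 ((d0 * e).factorization p) (r (d0 * e)) d'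
      ((hr _ hd).2.2 p hp) hd').2.1 h2 j
    rw [← hdd, ← hH _ hd, coeff_C_mul, hlam (d0 * e) p, pow_add, mul_assoc,
      mul_dvd_mul_iff_left (pow_ne_zero _ (by exact_mod_cast hp.ne_zero))] at h1
    rw [hM p hp]
    exact (((Nat.prime_iff_prime_int.1 hp).coprime_iff_not_dvd.2 (hu _ p hp)).pow_left).dvd_of_dvd_mul_left h1

/-- every intersective polynomial has, on a progression, auxiliary polynomials of content one -/
theorem one_q (h : ℤ[X]) (hk : 1 ≤ h.natDegree) (hpos : 0 < h.leadingCoeff)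
    (hint : Intersective h) (R0 : ℤ) (hR0 : R0 ≠ 0) (hR : RootCtl h R0) :
    ∃ (g : ℤ[X]) (lam : ℕ → ℕ) (r : ℕ → ℤ) (H : ℕ → ℤ[X]) (L : ℕ), AuxData g lam r H 1 ∧
      g.natDegree = h.natDegree ∧ 0 < g.leadingCoeff ∧ 1 ≤ L ∧
      (∀ N : ℕ, rMax h N ≤ L * rMax g N) ∧ L ≤ R0.natAbs ^ (h.natDegree + 1) ∧
      ∃ r0 : ℤ, |r0| ≤ (R0.natAbs : ℕ) ∧
        C (L : ℤ) * g = h.comp (C r0 + C ((R0.natAbs : ℕ) : ℤ) * X) := by
  obtain ⟨lam, r, H, M, d0, hA, hd0, hd0e, hMd, hM⟩ := aux_q h hint R0 hR0 hR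
  rw [← hd0e]
  have hM1 := hA.hR
  have hM0 : (0 : ℤ) < M := by exact_mod_cast hM1
  have hd0' : (0 : ℤ) < d0 := by exact_mod_cast hd0
  have HH : ∀ e : ℕ, ∃ K : ℤ[X], 1 ≤ e → C (M : ℤ) * K = H (d0 * e) := by
    intro e
    by_cases he : 1 ≤ e
    · obtain ⟨K, hK⟩ := (C_dvd_iff_dvd_coeff (M : ℤ) (H (d0 * e))).2 (hM e he)
      exact ⟨K, fun _ => hK.symm⟩
    · exact ⟨0, fun he' => absurd he' he⟩
  choose K hK using HH
  have HT : ∀ e : ℕ, ∃ t : ℤ, 1 ≤ e → r (d0 * e) = r d0 + d0 * t := by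
    intro e
    by_cases he : 1 ≤ e
    · obtain ⟨t, ht⟩ := hA.hrr d0 e hd0 he
      exact ⟨t, fun _ => by linarith⟩
    · exact ⟨0, fun he' => absurd he' he⟩
  choose t ht using HT
  have hg : C (M : ℤ) * K 1 = H d0 := by rw [hK 1 le_rfl, mul_one]
  have hl0 := hA.lam_pos d0 hd0
  have hg2 : C ((lam d0 * M : ℕ) : ℤ) * K 1 = h.comp (C (r d0) + C (d0 : ℤ) * X) := by
    rw [← hA.hH d0 hd0, ← hg, Nat.cast_mul, C_mul, mul_assoc]
  have hLM : 1 ≤ lam d0 * M := Nat.mul_pos hl0 hM1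
  have hdeg : (K 1).natDegree = h.natDegree := by
    rw [← hA.natDegree_H hk d0 hd0, ← hg, natDegree_C_mul hM0.ne']
  refine ⟨K 1, lam, t, K, lam d0 * M, ⟨le_rfl, ?_, hA.hmul, ?_, ?_, ?_, ?_⟩, hdeg, ?_, hLM,
    rMax_le_comp h (K 1) _ d0 (r d0) hLM (hA.hr d0 hd0).1 hg2, ?_, r d0, ?_, hg2⟩
  · intro e he
    have hde : 1 ≤ d0 * e := Nat.mul_pos hd0 he
    have hne : (C ((lam d0 * M : ℕ) : ℤ) : ℤ[X]) ≠ 0 := by
      rw [Ne, C_eq_zero]
      exact_mod_cast (by omega : lam d0 * M ≠ 0)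
    apply mul_left_cancel₀ hne
    have h1 := congrArg (fun q : ℤ[X] => q.comp (C (t e) + C (e : ℤ) * X)) hg2
    simp only [mul_comp, C_comp, comp_assoc, add_comp, X_comp] at h1
    rw [h1]
    have h2 := hA.hH (d0 * e) hde
    rw [← hK e he, hA.hmul d0 e hd0 he, ht e he] at h2
    have h3 : C (r d0) + C (d0 : ℤ) * (C (t e) + C (e : ℤ) * X) =
        C (r d0 + d0 * t e) + C ((d0 * e : ℕ) : ℤ) * X := by
      simp only [Nat.cast_mul, C_add, C_mul]
      ring
    rw [h3, ← h2]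
    simp only [Nat.cast_mul, C_mul]
    ring
  · intro e he
    rw [hdeg]
    exact hA.hdvd e he
  · intro e he
    have hde : 1 ≤ d0 * e := Nat.mul_pos hd0 he
    obtain ⟨h1, h2⟩ := hA.hr (d0 * e) hde
    obtain ⟨h3, h4⟩ := hA.hr d0 hd0
    rw [ht e he] at h1 h2
    push_cast at h1
    constructor
    · by_contra hcon
      have h5 : t e ≤ -(e : ℤ) := by omega
      nlinarith
    · by_contra hcon
      have h5 : 1 ≤ t e := by omega
      nlinarith
  · intro e q he hq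
    have hde : 1 ≤ d0 * e := Nat.mul_pos hd0 he
    have heq : 1 ≤ e * q := Nat.mul_pos he hq
    have h1 := hA.hrr (d0 * e) q hde hq
    rw [mul_assoc, ht _ heq, ht e he, Nat.cast_mul] at h1
    have h2 : r d0 + d0 * t (e * q) - (r d0 + d0 * t e) = d0 * (t (e * q) - t e) := by ring
    rw [h2] at h1
    exact (mul_dvd_mul_iff_left hd0'.ne').1 h1
  · intro e he g hgd
    have hde : 1 ≤ d0 * e := Nat.mul_pos hd0 he
    have h1 := hA.hgcd (d0 * e) hde (M * g) fun j hj => by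
      rw [← hK e he, coeff_C_mul]
      exact mul_dvd_mul_left _ (hgd j hj)
    have h2 : (M : ℤ) * g ∣ M * 1 := by rwa [mul_one]
    exact_mod_cast (mul_dvd_mul_iff_left hM0.ne').1 h2
  · have h1 := hA.lead_pos hk hpos d0 hd0
    rw [← hg, leadingCoeff_mul, leadingCoeff_C] at h1
    exact (mul_pos_iff_of_pos_left hM0).1 h1
  · rw [pow_succ]
    exact Nat.mul_le_mul (hA.lam_le d0 hd0) hMd
  · obtain ⟨h3, h4⟩ := hA.hr d0 hd0
    rw [abs_le]
    constructor <;> linarith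

end Vale.Agent.N042
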