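import Vale.Agent.N042.Aux1
import Vale.Agent.P042U.Fin

set_option autoImplicit false

/-!
P042: the power saving with all constants uniform in the polynomial, for polynomials whose
auxiliary polynomials have content one.
-/

namespace Vale.Agent.N042

open Polynomial Finset Vale.Agent.P042 Vale.Agent.P042.SS Vale.Agent.P042.H74
  Vale.Agent.P042.H739 Vale.Agent.P042.H362 Vale.Agent.P042.H359 Vale.Agent.P042.H387
  Vale.Agent.P042U

/-- the coefficients of `h(r + d x)` -/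
theorem comp_coeff_le (h : ℤ[X]) (k : ℕ) (B : ℤ) (hk : h.natDegree ≤ k)
    (hB : ∀ j, |h.coeff j| ≤ B) (r : ℤ) (d : ℕ) (hd : 1 ≤ d) (hr : |r| ≤ d) (j : ℕ) :
    |(h.comp (C r + C (d : ℤ) * X)).coeff j| ≤ (k + 1) * 2 ^ k * B * (d : ℤ) ^ k := by
  have hd1 : (1 : ℤ) ≤ d := by exact_mod_cast hd
  have hB0 : 0 ≤ B := (abs_nonneg _).trans (hB 0)
  have h2 : h.comp (C r + C (d : ℤ) * X) = (taylor r h).comp (C (d : ℤ) * X) := by
    rw [taylor_apply, comp_assoc]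
    congr 1
    simp only [add_comp, X_comp, C_comp]
    ring
  have h3 : (h.comp (C r + C (d : ℤ) * X)).coeff j =
      ∑ i ∈ Finset.range (k + 1),
        (((i.choose j : ℕ) : ℤ) * h.coeff i * r ^ (i - j)) * (d : ℤ) ^ j := by
    rw [h2, comp_C_mul_X_coeff, taylor_coeff, hasseDeriv_apply, ← Finset.sum_mul]
    congr 1
    rw [Polynomial.sum_over_range' _ (by intro n; simp only [mul_zero, monomial_zero_right])
      (k + 1) (by omega), eval_finsetSum]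
    exact Finset.sum_congr rfl fun i _ => by rw [eval_monomial]
  rw [h3]
  refine (Finset.abs_sum_le_sum_abs _ _).trans
    ((Finset.sum_le_card_nsmul _ _ (2 ^ k * B * (d : ℤ) ^ k) fun i hi => ?_).trans ?_)
  · rw [Finset.mem_range] at hi
    by_cases hij : j ≤ i
    · rw [abs_mul, abs_mul, abs_mul, abs_pow, abs_pow, Nat.abs_cast, Nat.abs_cast]
      have h5 : ((i.choose j : ℕ) : ℤ) ≤ 2 ^ k := by
        have : i.choose j ≤ 2 ^ k :=
          (Nat.choose_le_two_pow i j).trans (Nat.pow_le_pow_right (by norm_num) (by omega))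
        exact_mod_cast this
      have h6 : |r| ^ (i - j) * (d : ℤ) ^ j ≤ (d : ℤ) ^ k := by
        calc |r| ^ (i - j) * (d : ℤ) ^ j ≤ (d : ℤ) ^ (i - j) * (d : ℤ) ^ j := by gcongr
          _ = (d : ℤ) ^ i := by rw [← pow_add, Nat.sub_add_cancel hij]
          _ ≤ (d : ℤ) ^ k := pow_le_pow_right₀ hd1 (by omega)
      have h7 := hB i
      calc ((i.choose j : ℕ) : ℤ) * |h.coeff i| * |r| ^ (i - j) * (d : ℤ) ^ j
          = (((i.choose j : ℕ) : ℤ) * |h.coeff i|) * (|r| ^ (i - j) * (d : ℤ) ^ j) := by ring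
        _ ≤ (2 ^ k * B) * (d : ℤ) ^ k := by gcongr
    · rw [Nat.choose_eq_zero_of_lt (by omega)]
      simp only [Nat.cast_zero, zero_mul, abs_zero]
      positivity
  · rw [Finset.card_range, nsmul_eq_mul]
    push_cast
    exact le_of_eq (by ring)

/-- dividing by a positive integer does not increase the coefficients -/
theorem coeff_le_of_mul {L : ℕ} (hL : 1 ≤ L) {g f : ℤ[X]} (hg : C (L : ℤ) * g = f) (j : ℕ) :
    |g.coeff j| ≤ |f.coeff j| := by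
  rw [← hg, coeff_C_mul, abs_mul, Nat.abs_cast]
  have h1 : (1 : ℤ) ≤ L := by exact_mod_cast hL
  exact le_mul_of_one_le_left (abs_nonneg _) h1

/-- the generic core at one value of `N`; `T` bounds the auxiliary polynomials -/
theorem core_at {GW : GwTy} {h : ℤ[X]} {lam0 : ℕ → ℕ} {r : ℕ → ℤ} {Hh : ℕ → ℤ[X]} {k : ℕ}
    (hAux : AuxData h lam0 r Hh 1) (hk : h.natDegree = k) (hk2 : 2 ≤ k)
    (hpos : 0 < h.leadingCoeff) {κ κ0 κ1 c1 thQ T P dl : ℝ}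
    (hκ1 : 0 < κ1) (hκ : 0 < κ) (hκκ0 : κ ≤ κ0) (hκ0c : κ0 ≤ c1 / 4)
    (hκ0k : κ0 ≤ κ1 / (4 * k)) (Sp : ℤ[X] → ℕ → (ℤ → ℝ) → Prop)
    (hAN : ANat GW k κ1 c1 thQ P)
    (hLow : ∀ (f : ℤ[X]) (N' : ℕ) (G : ℤ → ℝ), f.natDegree = k →
      0 < f.leadingCoeff → (∀ g : ℤ, (∀ j : ℕ, 1 ≤ j → g ∣ f.coeff j) → g ∣ ((1 : ℕ) : ℤ)) →
      (∀ j : ℕ, |(f.coeff j : ℝ)| ≤ Real.exp (2 * k * κ * P)) →
      Base6 f κ P N' G → Sp f N' G → LOWat GW κ0 thQ P f N' G)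
    (hState : STat h Hh κ dl P Sp) (hT : 1 ≤ T)
    (hcoef : ∀ d : ℕ, 1 ≤ d → ∀ j, |((Hh d).coeff j : ℝ)| ≤ T * (d : ℝ) ^ k)
    (hP1 : 1 ≤ P) (hd1' : 2 * Real.log (((k + 1 : ℕ) : ℝ) * 2 ^ k * T) ≤ P * κ1)
    (hd2' : (Real.log 8 + 1) * 2 ≤ P * c1) (hd4' : Real.log T ≤ P * (k * κ))
    (N : ℕ) (hN : 1 ≤ N) (hP : Real.log N = P) :
    (rMax h N : ℝ) ≤ N * Real.exp (-dl) := by
  classical
  have hk1 : 1 ≤ k := by omega
  have hkr : (1 : ℝ) ≤ k := by exact_mod_cast hk1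
  have hκ0pos : 0 < κ0 := lt_of_lt_of_le hκ hκκ0
  have hkκ0 : k * κ0 ≤ κ1 / 4 := by
    have h1 := hκ0k
    rw [le_div_iff₀ (by positivity)] at h1
    linarith
  have hkκ : k * κ ≤ κ1 / 4 := le_trans (mul_le_mul_of_nonneg_left hκκ0 (by linarith)) hkκ0
  have hκκ1 : κ ≤ κ1 := by
    have h1 : 1 * κ ≤ k * κ := mul_le_mul_of_nonneg_right hkr hκ.le
    linarith
  obtain ⟨M, hM⟩ : ∃ x : ℝ, x = ((k + 1 : ℕ) : ℝ) * 2 ^ k * T := ⟨_, rfl⟩
  have hT0 : 0 < T := by linarith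
  have hMpos : 0 < M := by
    rw [hM]
    positivity
  rw [← hM] at hd1'
  have hPp : 0 < P := by linarith
  have hred : ∀ B : ℝ, 0 ≤ B → (∀ A0 : Finset ℤ, A0 ⊆ Icc (1 : ℤ) N → DiffFree h A0 →
      (A0.card : ℝ) ≤ B) → (rMax h N : ℝ) ≤ B := by
    intro B hB hall
    have h1 : rMax h N ≤ ⌊B⌋₊ := by
      unfold rMax
      refine Finset.sup_le fun A0 hA0 => ?_
      rw [mem_filter, mem_powerset] at hA0
      exact Nat.le_floor (hall A0 hA0.1 hA0.2)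
    exact (Nat.cast_le.2 h1).trans (Nat.floor_le hB)
  refine hred _ (by positivity) fun A0 hA0 hfree => ?_
  by_contra hcon
  rw [not_le] at hcon
  obtain ⟨d, N', G, hd1, hdle, hbase, hst⟩ :=
    hState N hN hP A0 hA0 hfree (by rw [mul_comm]; exact hcon.le)
  have hfdeg : (Hh d).natDegree = k := by rw [hAux.natDegree_H (by omega) d hd1, hk]
  have hflead : 0 < (Hh d).leadingCoeff := hAux.lead_pos (by omega) hpos d hd1
  have hfcont := hAux.hgcd d hd1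
  have hBc : ∀ j : ℕ, |((Hh d).coeff j : ℝ)| ≤ T * Real.exp (k * (κ * P)) := by
    intro j
    refine (hcoef d hd1 j).trans (mul_le_mul_of_nonneg_left ?_ hT0.le)
    rw [Real.exp_nat_mul]
    exact pow_le_pow_left₀ (Nat.cast_nonneg _) hdle k
  have hBc2 : ∀ j : ℕ, |((Hh d).coeff j : ℝ)| ≤ Real.exp (2 * k * κ * P) := by
    intro j
    refine (hBc j).trans ?_
    have h4 : T = Real.exp (Real.log T) := (Real.exp_log hT0).symm
    rw [h4, ← Real.exp_add, Real.exp_le_exp]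
    have h5 : P * (k * κ) = k * (κ * P) := by ring
    have h6 : 2 * k * κ * P = 2 * (k * (κ * P)) := by ring
    rw [h6]
    rw [h5] at hd4'
    linarith
  have hlow := hLow (Hh d) N' G hfdeg hflead hfcont hBc2 hbase hst
  refine last_stepS hk1 hfdeg hflead le_rfl hfcont (by positivity) hBc hbase hP1 hκκ1 ?_ ?_ ?_
    hAN hlow
  · have h3 : c1 / 2 * P ≤ (c1 - 2 * κ0) * P :=
      mul_le_mul_of_nonneg_right (by linarith) (by linarith)
    linarith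
  · rw [Nat.cast_one, one_mul, Real.exp_le_exp]
    have h5 : k * κ0 * P ≤ κ1 / 4 * P := mul_le_mul_of_nonneg_right hkκ0 hPp.le
    have h6 : 0 < κ1 * P := mul_pos hκ1 hPp
    linarith
  · have h3 : ((k + 1 : ℕ) : ℝ) * 2 ^ k * Real.exp (k * (κ0 * P)) *
        (T * Real.exp (k * (κ * P))) =
        M * (Real.exp (k * (κ0 * P)) * Real.exp (k * (κ * P))) := by
      rw [hM]
      ring
    rw [h3]
    have h4 : M = Real.exp (Real.log M) := (Real.exp_log hMpos).symm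
    rw [h4, ← Real.exp_add, ← Real.exp_add, Real.exp_le_exp]
    have h5 : k * κ0 * P ≤ κ1 / 4 * P := mul_le_mul_of_nonneg_right hkκ0 hPp.le
    have h6 : k * κ * P ≤ κ1 / 4 * P := mul_le_mul_of_nonneg_right hkκ hPp.le
    linarith

/-- the saving starts at `log N ≥ P0 + K log T` -/
def FinalT : Prop :=
  ∀ k : ℕ, 2 ≤ k → ∃ c P0 K : ℝ, 0 < c ∧ 0 ≤ P0 ∧ 0 ≤ K ∧
    ∀ (h : ℤ[X]) (lam0 : ℕ → ℕ) (r : ℕ → ℤ) (Hh : ℕ → ℤ[X]), AuxData h lam0 r Hh 1 →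
      h.natDegree = k → 0 < h.leadingCoeff → ∀ T : ℝ, 1 ≤ T →
      (∀ d : ℕ, 1 ≤ d → ∀ j, |((Hh d).coeff j : ℝ)| ≤ T * (d : ℝ) ^ k) →
      ∀ N : ℕ, 1 ≤ N → P0 + K * Real.log T ≤ Real.log N →
        (rMax h N : ℝ) ≤ N * Real.exp (-(c * Real.log N))

theorem finalT_of {GW : GwTy} {St : StTy} (hState : STATEU St) (hAN : ANU GW)
    (hLow : LOWERF GW St) : FinalT := by
  classical
  intro k hk2
  obtain ⟨thA, hthA, hAN1⟩ := hAN k hk2
  obtain ⟨th0, hth0e⟩ : ∃ x : ℝ, x = min thA (1 / 16) := ⟨_, rfl⟩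
  have hth0 : 0 < th0 := by
    rw [hth0e]
    exact lt_min hthA (by norm_num)
  have hth016 : th0 ≤ 1 / 16 := by rw [hth0e]; exact min_le_right _ _
  have hth0A : th0 ≤ thA := by rw [hth0e]; exact min_le_left _ _
  obtain ⟨c1, κ1, hc1, hκ1, Pa, hAN2⟩ := hAN1 th0 hth0 hth0A
  have hkr : (1 : ℝ) ≤ k := by exact_mod_cast (by omega : 1 ≤ k)
  obtain ⟨κ0, hκ0⟩ : ∃ x : ℝ, x = min (c1 / 4) (min (κ1 / (4 * k)) (1 / 8)) := ⟨_, rfl⟩
  have hκ0pos : 0 < κ0 := by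
    rw [hκ0]
    refine lt_min (by positivity) (lt_min (by positivity) (by norm_num))
  have hκ0c : κ0 ≤ c1 / 4 := by rw [hκ0]; exact min_le_left _ _
  have hκ0k : κ0 ≤ κ1 / (4 * k) := by
    rw [hκ0]; exact (min_le_right _ _).trans (min_le_left _ _)
  have hκ08 : κ0 ≤ 1 / 8 := by rw [hκ0]; exact (min_le_right _ _).trans (min_le_right _ _)
  obtain ⟨κ, hκ, hκκ0, Pb, hLow2⟩ := hLow k 1 hk2 le_rfl th0 κ0 hth0 hth016 hκ0pos
  obtain ⟨c, hc, Pc, hState2⟩ := hState k 1 κ hk2 le_rfl hκ (hκκ0.trans hκ08)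
  obtain ⟨E, hE⟩ : ∃ x : ℝ, x = ((k + 1 : ℕ) : ℝ) * 2 ^ k := ⟨_, rfl⟩
  have hE0 : 0 < E := by rw [hE]; positivity
  have hkκ : 0 < k * κ := by positivity
  obtain ⟨P0, hP0⟩ : ∃ x : ℝ, x = max (max (max Pa Pb) (max Pc 1))
    (max (2 * Real.log E / κ1) ((Real.log 8 + 1) * 2 / c1)) := ⟨_, rfl⟩
  have q := hP0.ge
  simp only [max_le_iff] at q
  obtain ⟨⟨⟨q1, q2⟩, q3, q4⟩, q5, q6⟩ := q
  refine ⟨c, P0, 2 / κ1 + 1 / (k * κ), hc, by linarith, by positivity,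
    fun h lam0 r Hh hAux hk hpos T hT hcoef N hN hge => ?_⟩
  obtain ⟨P, hP⟩ : ∃ x : ℝ, Real.log N = x := ⟨_, rfl⟩
  rw [hP] at hge ⊢
  have hlT : 0 ≤ Real.log T := Real.log_nonneg hT
  have a1 : 0 ≤ 2 / κ1 * Real.log T := by positivity
  have a2 : 0 ≤ 1 / (k * κ) * Real.log T := by positivity
  rw [add_mul] at hge
  refine core_at hAux hk hk2 hpos hκ1 hκ hκκ0 hκ0c hκ0k
    (fun f N' G => St k 1 f κ P N' G) (hAN2 P (by linarith)) (hLow2 P (by linarith))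
    (hState2 h lam0 r Hh hAux hk hpos P (by linarith)) hT hcoef (by linarith) ?_ ?_ ?_ N hN hP
  · rw [← hE, Real.log_mul hE0.ne' (by linarith), ← div_le_iff₀ hκ1]
    have : 2 * (Real.log E + Real.log T) / κ1 = 2 * Real.log E / κ1 + 2 / κ1 * Real.log T := by
      ring
    linarith
  · rw [← div_le_iff₀ hc1]
    linarith
  · rw [← div_le_iff₀ hkκ]
    have : Real.log T / (k * κ) = 1 / (k * κ) * Real.log T := by ring
    linarith

theorem finalT : FinalT := by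
  obtain ⟨C1, hC1, cs, hcs, thk, hthk, thr, thb, hthb, hloc⟩ := H860.locF
  obtain ⟨par, h1, h2, h3, h4, h5⟩ := constants C1 (fun k _ => by linarith [hC1 k]) cs hcs thk
    hthk thr thb hthb Q0s
  exact finalT_of (St := StF par (mkFam C1 cs par))
    (stateU par (mkFam C1 cs par) (fun k R κ hk _ hκ _ => h2 k R κ hk hκ)
      (fun k R κ hk _ hκ _ => h3 k R κ hk hκ))
    (anu_k C1 fun k => by linarith [hC1 k])
    (lowerF_of (K0f := K0fun par) (Q0f := Q0fun Q0s par) hC1 (fun k R _ _ K00 => h4 k R K00)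
      (fun _ _ _ => le_rfl) h5 (hloc par h1))

theorem rMax_le (h : ℤ[X]) (N : ℕ) : rMax h N ≤ N := by
  classical
  unfold rMax
  refine Finset.sup_le fun A0 hA0 => ?_
  rw [mem_filter, mem_powerset] at hA0
  have h3 := Finset.card_le_card hA0.1
  rw [Int.card_Icc] at h3
  omega

/-- power saving with a constant polynomial in `T` -/
theorem final_one (k : ℕ) (hk2 : 2 ≤ k) : ∃ c C0 : ℝ, ∃ K : ℕ, 0 < c ∧ 0 < C0 ∧
    ∀ (h : ℤ[X]) (lam0 : ℕ → ℕ) (r : ℕ → ℤ) (Hh : ℕ → ℤ[X]), AuxData h lam0 r Hh 1 →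
      h.natDegree = k → 0 < h.leadingCoeff → ∀ T : ℝ, 1 ≤ T →
      (∀ d : ℕ, 1 ≤ d → ∀ j, |((Hh d).coeff j : ℝ)| ≤ T * (d : ℝ) ^ k) →
      ∀ N : ℕ, 1 ≤ N → (rMax h N : ℝ) ≤ C0 * T ^ K * (N : ℝ) ^ (1 - c) := by
  obtain ⟨c, P0, K, hc, hP0, hK, H⟩ := finalT k hk2
  refine ⟨c, Real.exp (c * P0), ⌈c * K⌉₊, hc, Real.exp_pos _,
    fun h lam0 r Hh hAux hk hpos T hT hcoef N hN => ?_⟩
  have hN0 : (0 : ℝ) < N := by exact_mod_cast hN
  have hT0 : 0 < T := by linarith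
  have hlT : 0 ≤ Real.log T := Real.log_nonneg hT
  have hNpow : (N : ℝ) ^ (1 - c) = Real.exp (-(c * Real.log N)) * N := by
    rw [Real.rpow_sub hN0, Real.rpow_one, Real.rpow_def_of_pos hN0, Real.exp_neg,
      mul_comm (Real.log N) c]
    field_simp
  have hTK : Real.exp (c * (P0 + K * Real.log T)) ≤ Real.exp (c * P0) * T ^ ⌈c * K⌉₊ := by
    have h1 : T ^ ⌈c * K⌉₊ = Real.exp (⌈c * K⌉₊ * Real.log T) := by
      rw [Real.exp_nat_mul, Real.exp_log hT0]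
    rw [h1, ← Real.exp_add, Real.exp_le_exp]
    have h2 : c * K * Real.log T ≤ ⌈c * K⌉₊ * Real.log T :=
      mul_le_mul_of_nonneg_right (Nat.le_ceil _) hlT
    linarith
  rw [hNpow]
  refine le_trans ?_ (mul_le_mul_of_nonneg_right hTK (by positivity))
  obtain ⟨P1, hP1⟩ : ∃ x : ℝ, x = P0 + K * Real.log T := ⟨_, rfl⟩
  have hP10 : 0 ≤ P1 := by rw [hP1]; positivity
  rw [← hP1]
  rcases lt_or_ge (Real.log N) P1 with hlt | hge
  · have h1 : (rMax h N : ℝ) ≤ N := by exact_mod_cast rMax_le h N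
    have h3 : (1 : ℝ) ≤ Real.exp (c * P1) * Real.exp (-(c * Real.log N)) := by
      rw [← Real.exp_add]
      apply Real.one_le_exp
      have h4 : c * Real.log N ≤ c * P1 := mul_le_mul_of_nonneg_left hlt.le hc.le
      linarith
    calc (rMax h N : ℝ) ≤ N := h1
      _ = 1 * N := (one_mul _).symm
      _ ≤ (Real.exp (c * P1) * Real.exp (-(c * Real.log N))) * N :=
          mul_le_mul_of_nonneg_right h3 hN0.le
      _ = _ := by ring
  · have h1 := H h lam0 r Hh hAux hk hpos T hT hcoef N hN (hP1 ▸ hge)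
    have h2 : (1 : ℝ) ≤ Real.exp (c * P1) := Real.one_le_exp (mul_nonneg hc.le hP10)
    calc (rMax h N : ℝ) ≤ N * Real.exp (-(c * Real.log N)) := h1
      _ = 1 * (Real.exp (-(c * Real.log N)) * N) := by ring
      _ ≤ Real.exp (c * P1) * (Real.exp (-(c * Real.log N)) * N) :=
          mul_le_mul_of_nonneg_right h2 (by positivity)

/-- **power saving with all constants uniform in the polynomial**: natural height bound -/
theorem final_height (k : ℕ) (hk2 : 2 ≤ k) : ∃ c C0 : ℝ, ∃ K : ℕ, 0 < c ∧ 0 < C0 ∧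
    ∀ h : ℤ[X], h.natDegree = k → 0 < h.leadingCoeff → Intersective h →
      ∀ B : ℕ, (∀ j, |h.coeff j| ≤ B) →
      ∀ N : ℕ, 1 ≤ N → (rMax h N : ℝ) ≤ C0 * (B : ℝ) ^ K * (N : ℝ) ^ (1 - c) := by
  obtain ⟨c, C0, K, hc, hC0, H⟩ := final_one k hk2
  -- `Z k B = a * B ^ (2 k)`
  obtain ⟨a, ha⟩ : ∃ a : ℕ, a = (2 * k).factorial * ((k + 1) * (2 ^ k * (k + 1))) ^ (2 * k) :=
    ⟨_, rfl⟩
  have ha0 : 0 < a := by rw [ha]; positivity
  have hZ : ∀ B : ℕ, Z k B = a * B ^ (2 * k) := by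
    intro B
    rw [Z, ha, ← mul_assoc (k + 1), mul_pow, mul_assoc]
  obtain ⟨u, hu⟩ : ∃ u : ℕ, u = (k + 1) * k := ⟨_, rfl⟩
  obtain ⟨E, hE⟩ : ∃ E : ℕ, E = (k + 1) * 2 ^ k := ⟨_, rfl⟩
  have hE0 : 0 < E := by rw [hE]; positivity
  refine ⟨c, (a : ℝ) ^ (u * (k + 1)) * (C0 * ((E : ℝ) * E * (a : ℝ) ^ (u * k)) ^ K),
    2 * k * u * (k + 1) + (1 + 2 * k * u * k) * K, hc, by positivity,
    fun h hdeg hpos hint B hB N hN => ?_⟩
  have hh : h ≠ 0 := by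
    rintro rfl
    simp at hpos
  have hB1 : 1 ≤ B := by
    have h1 := hB h.natDegree
    rw [coeff_natDegree, abs_of_pos hpos] at h1
    omega
  obtain ⟨R, hR0, hRb, hR⟩ := root_q h hh k B hdeg.le hB1 hB
  obtain ⟨g, lam, r, Hh, L, hA, hgd, hgp, hL, hle, hLb, r0, hr0, hg⟩ :=
    one_q h (by omega) hpos hint R hR0 hR
  obtain ⟨D, hD⟩ : ∃ D : ℕ, D = R.natAbs := ⟨_, rfl⟩
  rw [← hD] at hLb hr0 hg
  have hD1 : 1 ≤ D := by rw [hD]; exact Int.natAbs_pos.2 hR0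
  have hDb : D ≤ (a * B ^ (2 * k)) ^ u := by
    have h1 : (D : ℤ) ≤ ((Z k B ^ ((k + 1) * k) : ℕ) : ℤ) := by
      rw [hD, Int.natCast_natAbs]
      push_cast
      exact hRb
    rw [hu, ← hZ]
    exact_mod_cast h1
  have hgB : ∀ j, |g.coeff j| ≤ (k + 1) * 2 ^ k * B * (D : ℤ) ^ k := fun j =>
    (coeff_le_of_mul hL hg j).trans (comp_coeff_le h k B hdeg.le hB r0 D hD1 hr0 j)
  obtain ⟨T, hT⟩ : ∃ T : ℕ, T = E * (E * B * D ^ k) := ⟨_, rfl⟩
  have hT1 : 1 ≤ T := by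
    rw [hT]
    exact Nat.mul_pos hE0 (Nat.mul_pos (Nat.mul_pos hE0 hB1) (pow_pos hD1 k))
  have hcoef : ∀ d : ℕ, 1 ≤ d → ∀ j, |((Hh d).coeff j : ℝ)| ≤ (T : ℝ) * (d : ℝ) ^ k := by
    intro d hd j
    have hr : |r d| ≤ d := by
      obtain ⟨h3, h4⟩ := hA.hr d hd
      rw [abs_le]
      constructor <;> linarith
    have h1 := (coeff_le_of_mul (hA.lam_pos d hd) (hA.hH d hd) j).trans
      (comp_coeff_le g k _ (hgd.trans hdeg).le hgB (r d) d hd hr j)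
    have h2 : |(Hh d).coeff j| ≤ (T : ℤ) * (d : ℤ) ^ k := by
      refine h1.trans (le_of_eq ?_)
      rw [hT, hE]
      push_cast
      ring
    exact_mod_cast h2
  have h1 := H g lam r Hh hA (hgd.trans hdeg) hgp T (by exact_mod_cast hT1) hcoef N hN
  have h2 : (rMax h N : ℝ) ≤ L * rMax g N := by exact_mod_cast hle N
  have hLb' : L ≤ a ^ (u * (k + 1)) * B ^ (2 * k * u * (k + 1)) := by
    rw [hdeg] at hLb
    refine hLb.trans ((Nat.pow_le_pow_left hDb _).trans (le_of_eq ?_))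
    rw [← pow_mul, mul_pow, ← pow_mul]
    ring
  have hTb : T ≤ E * E * a ^ (u * k) * B ^ (1 + 2 * k * u * k) := by
    rw [hT]
    have h3 : D ^ k ≤ a ^ (u * k) * B ^ (2 * k * u * k) := by
      refine (Nat.pow_le_pow_left hDb _).trans (le_of_eq ?_)
      rw [← pow_mul, mul_pow, ← pow_mul]
      ring
    calc E * (E * B * D ^ k) ≤ E * (E * B * (a ^ (u * k) * B ^ (2 * k * u * k))) := by gcongr
      _ = _ := by ring
  have hLr : (L : ℝ) ≤ (a : ℝ) ^ (u * (k + 1)) * (B : ℝ) ^ (2 * k * u * (k + 1)) := by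
    exact_mod_cast hLb'
  have hTr : (T : ℝ) ≤ (E : ℝ) * E * (a : ℝ) ^ (u * k) * (B : ℝ) ^ (1 + 2 * k * u * k) := by
    exact_mod_cast hTb
  calc (rMax h N : ℝ) ≤ L * rMax g N := h2
    _ ≤ ((a : ℝ) ^ (u * (k + 1)) * (B : ℝ) ^ (2 * k * u * (k + 1))) *
        (C0 * ((E : ℝ) * E * (a : ℝ) ^ (u * k) * (B : ℝ) ^ (1 + 2 * k * u * k)) ^ K *
          (N : ℝ) ^ (1 - c)) := by
      refine mul_le_mul hLr (h1.trans ?_) (Nat.cast_nonneg _) (by positivity)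
      gcongr
    _ = _ := by
      rw [mul_pow _ ((B : ℝ) ^ (1 + 2 * k * u * k)) K, ← pow_mul (B : ℝ), pow_add (B : ℝ)]
      ring

end Vale.Agent.N042
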