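import Mathlib.Algebra.Order.BigOperators.Group.Finset
import Mathlib.Algebra.BigOperators.Ring.Finset
import Mathlib.Data.Int.Interval
import Mathlib.Data.Finset.Max
import Mathlib.Data.Finset.Powerset
import Mathlib.Order.Interval.Finset.Nat
import Mathlib.Tactic

set_option autoImplicit false

/-!
P042: two counting lemmas (independent sets in sparse graphs; averaging over progressions).
-/

namespace Vale.Agent.N042

open Finset

/-- a set with few related pairs has a large subset without related pairs -/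
theorem exists_indep {α : Type*} [DecidableEq α] (A : Finset α) (F : α → α → Prop)
    [DecidableRel F] (hirr : ∀ a, ¬ F a a) :
    ∃ I ⊆ A, (∀ a ∈ I, ∀ b ∈ I, ¬ F a b) ∧
      A.card ^ 2 ≤ 8 * I.card * (A.card + ((A ×ˢ A).filter fun p => F p.1 p.2).card) := by
  classical
  obtain ⟨P, hP⟩ : ∃ P, P = ((A ×ˢ A).filter fun p => F p.1 p.2).card := ⟨_, rfl⟩
  rw [← hP]
  obtain ⟨deg, hdeg⟩ : ∃ deg : α → ℕ, ∀ a, deg a =
      (A.filter fun b => F a b).card + (A.filter fun b => F b a).card := ⟨_, fun _ => rfl⟩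
  have hsum : ∑ a ∈ A, deg a = 2 * P := by
    simp only [hdeg, sum_add_distrib, card_filter]
    rw [hP, card_filter, sum_product, two_mul]
    congr 1
    exact sum_comm
  obtain ⟨n, hn⟩ : ∃ n, n = A.card := ⟨_, rfl⟩
  obtain ⟨A', hA'⟩ : ∃ A', A' = A.filter fun a => n * deg a ≤ 4 * P := ⟨_, rfl⟩
  have hhalf : n ≤ 2 * A'.card := by
    have h1 : A'.card + (A.filter fun a => ¬ n * deg a ≤ 4 * P).card = n := by
      rw [hA', hn]
      exact card_filter_add_card_filter_not _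
    obtain ⟨m, hm⟩ : ∃ m, m = (A.filter fun a => ¬ n * deg a ≤ 4 * P).card := ⟨_, rfl⟩
    have h2 : m * (4 * P + 1) ≤ n * (2 * P) := by
      rw [← hsum, mul_sum, hm, ← smul_eq_mul]
      refine (card_nsmul_le_sum _ (fun a => n * deg a) _ fun a ha => ?_).trans
        (sum_le_sum_of_subset (filter_subset _ _))
      have := (mem_filter.1 ha).2
      omega
    rw [← hm] at h1
    by_contra hcon
    have h3 : n + 1 ≤ 2 * m := by omega
    nlinarith
  obtain ⟨Q, hQ⟩ : ∃ Q : Finset α → Prop, ∀ I, Q I ↔ ∀ a ∈ I, ∀ b ∈ I, ¬ F a b :=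
    ⟨_, fun _ => Iff.rfl⟩
  obtain ⟨I, hI, hmax⟩ := exists_max_image (A'.powerset.filter Q) card
    ⟨∅, mem_filter.2 ⟨empty_mem_powerset _, (hQ _).2 (by simp)⟩⟩
  rw [mem_filter, mem_powerset, hQ] at hI
  have hA'A : A' ⊆ A := by rw [hA']; exact filter_subset _ _
  refine ⟨I, hI.1.trans hA'A, hI.2, ?_⟩
  have hcov : A' ⊆ I ∪ I.biUnion fun a => (A.filter fun b => F a b) ∪ A.filter fun b => F b a := by
    intro x hx
    by_contra hcon
    rw [mem_union, not_or, mem_biUnion] at hcon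
    obtain ⟨hx1, hx2⟩ := hcon
    have h1 := hmax (insert x I) (mem_filter.2 ⟨mem_powerset.2 (insert_subset hx hI.1),
      (hQ _).2 ?_⟩)
    · rw [card_insert_of_notMem hx1] at h1
      omega
    · intro a ha b hb hab
      rw [mem_insert] at ha hb
      rcases ha with rfl | ha
      · rcases hb with rfl | hb
        · exact hirr _ hab
        · exact hx2 ⟨b, hb, mem_union_right _ (mem_filter.2 ⟨hA'A hx, hab⟩)⟩
      · rcases hb with rfl | hb
        · exact hx2 ⟨a, ha, mem_union_left _ (mem_filter.2 ⟨hA'A hx, hab⟩)⟩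
        · exact hI.2 a ha b hb hab
  have h1 : A'.card ≤ I.card + ∑ a ∈ I, deg a := by
    refine (card_le_card hcov).trans ((card_union_le _ _).trans (Nat.add_le_add_left ?_ _))
    refine card_biUnion_le.trans (sum_le_sum fun a _ => ?_)
    rw [hdeg]
    exact card_union_le _ _
  have h2 : n * ∑ a ∈ I, deg a ≤ I.card * (4 * P) := by
    rw [mul_sum, ← smul_eq_mul]
    refine sum_le_card_nsmul _ _ _ fun a ha => ?_
    have := hI.1 ha
    rw [hA'] at this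
    exact (mem_filter.1 this).2
  rw [← hn]
  have h3 : n * n ≤ n * (2 * (I.card + ∑ a ∈ I, deg a)) := Nat.mul_le_mul_left _ (by omega)
  nlinarith

/-- averaging over the progressions of step `d ^ k` and length `M` -/
theorem good_starts (k r M N d : ℕ) (hk : 1 ≤ k) (A : Finset ℤ) (hA : A ⊆ Icc (1 : ℤ) N)
    (hr : ∀ B : Finset ℤ, B ⊆ Icc (1 : ℤ) M →
      (∀ a ∈ B, ∀ b ∈ B, ∀ n : ℕ, 1 ≤ n → a - b = (n : ℤ) ^ k → a = b) → B.card ≤ r)
    (hd : d ^ k * M ≤ N) :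
    M * A.card ≤ 2 * N * r + M * ((Ioc (-(N : ℤ)) N).filter fun s =>
      ∃ j ∈ Icc (1 : ℤ) M, ∃ m ∈ Icc 1 M, s + j * (d : ℤ) ^ k ∈ A ∧
        s + j * (d : ℤ) ^ k + ((m * d : ℕ) : ℤ) ^ k ∈ A).card := by
  classical
  obtain ⟨e, he⟩ : ∃ e : ℤ, e = (d : ℤ) ^ k := ⟨_, rfl⟩
  have he0 : 0 ≤ e := by rw [he]; positivity
  have heM : e * M ≤ N := by rw [he]; exact_mod_cast hd
  obtain ⟨G, hG⟩ : ∃ G, G = (Ioc (-(N : ℤ)) N).filter fun s =>
      ∃ j ∈ Icc (1 : ℤ) M, ∃ m ∈ Icc 1 M, s + j * (d : ℤ) ^ k ∈ A ∧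
        s + j * (d : ℤ) ^ k + ((m * d : ℕ) : ℤ) ^ k ∈ A := ⟨_, rfl⟩
  rw [← hG]
  obtain ⟨f, hf⟩ : ∃ f : ℤ → ℕ, ∀ s, f s = ((Icc (1 : ℤ) M).filter fun j => s + j * e ∈ A).card :=
    ⟨_, fun _ => rfl⟩
  have h1 : M * A.card ≤ ∑ s ∈ Ioc (-(N : ℤ)) N, f s := by
    simp only [hf, card_filter]
    rw [sum_comm]
    have h2 : ∀ j ∈ Icc (1 : ℤ) M, A.card ≤
        ∑ s ∈ Ioc (-(N : ℤ)) N, if s + j * e ∈ A then 1 else 0 := by
      intro j hj
      rw [← card_filter]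
      rw [mem_Icc] at hj
      refine card_le_card_of_injOn (fun a => a - j * e) (fun a ha => ?_) fun a _ b _ hab => ?_
      · have h3 := mem_Icc.1 (hA ha)
        have h4 : j * e ≤ M * e := mul_le_mul_of_nonneg_right hj.2 he0
        have h5 : 0 ≤ j * e := mul_nonneg (by omega) he0
        refine mem_coe.2 (mem_filter.2 ⟨mem_Ioc.2 ⟨by linarith, by linarith⟩, ?_⟩)
        rw [sub_add_cancel]
        exact ha
      · exact sub_left_injective hab
    have h3 := card_nsmul_le_sum _ _ _ h2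
    rwa [Int.card_Icc, add_sub_cancel_right, Int.toNat_natCast, smul_eq_mul] at h3
  have h2 : ∀ s ∈ Ioc (-(N : ℤ)) N, f s ≤ r + if s ∈ G then M else 0 := by
    intro s hs
    split_ifs with hsG
    · rw [hf]
      refine (card_filter_le _ _).trans ?_
      rw [Int.card_Icc, add_sub_cancel_right, Int.toNat_natCast]
      omega
    · rw [hf, add_zero]
      refine hr _ (filter_subset _ _) fun a ha b hb n hn hab => ?_
      exfalso
      rw [mem_filter, mem_Icc] at ha hb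
      apply hsG
      rw [hG, mem_filter]
      have h3 : (n : ℤ) ≤ (n : ℤ) ^ k := le_self_pow₀ (by exact_mod_cast hn) (by omega)
      refine ⟨hs, b, mem_Icc.2 hb.1, n, mem_Icc.2 ⟨hn, by omega⟩, he ▸ hb.2, ?_⟩
      have h4 : s + b * (d : ℤ) ^ k + ((n * d : ℕ) : ℤ) ^ k = s + a * e := by
        rw [he]
        push_cast
        rw [mul_pow, ← hab]
        ring
      rw [h4]
      exact ha.2
  refine h1.trans ((sum_le_sum h2).trans ?_)
  rw [sum_add_distrib, sum_const, Int.card_Ioc, smul_eq_mul, ← sum_filter, sum_const,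
    smul_eq_mul, mul_comm _ M]
  have h3 : ((N : ℤ) - -(N : ℤ)).toNat = 2 * N := by omega
  rw [h3]
  refine Nat.add_le_add_left (Nat.mul_le_mul_left _ (card_le_card fun s hs => ?_)) _
  exact (mem_filter.1 hs).2

/-- summing over the steps -/
theorem count_pairs (k r M N D : ℕ) (hk : 1 ≤ k) (A : Finset ℤ) (hA : A ⊆ Icc (1 : ℤ) N)
    (hr : ∀ B : Finset ℤ, B ⊆ Icc (1 : ℤ) M →
      (∀ a ∈ B, ∀ b ∈ B, ∀ n : ℕ, 1 ≤ n → a - b = (n : ℤ) ^ k → a = b) → B.card ≤ r)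
    (hD : D ^ k * M ≤ N) :
    D * (M * A.card) ≤ D * (2 * N * r) + M ^ 3 *
      ((A ×ˢ Icc 1 N).filter fun p : ℤ × ℕ => p.1 + (p.2 : ℤ) ^ k ∈ A).card := by
  classical
  obtain ⟨G, hG⟩ : ∃ G : ℕ → Finset ℤ, ∀ d, G d = (Ioc (-(N : ℤ)) N).filter fun s =>
      ∃ j ∈ Icc (1 : ℤ) M, ∃ m ∈ Icc 1 M, s + j * (d : ℤ) ^ k ∈ A ∧
        s + j * (d : ℤ) ^ k + ((m * d : ℕ) : ℤ) ^ k ∈ A := ⟨_, fun _ => rfl⟩
  obtain ⟨Pr, hPr⟩ : ∃ Pr, Pr = (A ×ˢ Icc 1 N).filter
    fun p : ℤ × ℕ => p.1 + (p.2 : ℤ) ^ k ∈ A := ⟨_, rfl⟩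
  rw [← hPr]
  have h1 : ∀ d ∈ Icc 1 D, M * A.card ≤ 2 * N * r + M * (G d).card := by
    intro d hd
    rw [hG]
    exact good_starts k r M N d hk A hA hr
      ((Nat.mul_le_mul_right _ (Nat.pow_le_pow_left (mem_Icc.1 hd).2 _)).trans hD)
  have h2 := sum_le_sum h1
  rw [sum_add_distrib, sum_const, sum_const, Nat.card_Icc, Nat.add_sub_cancel, smul_eq_mul,
    smul_eq_mul, ← mul_sum, ← card_sigma] at h2
  refine h2.trans (Nat.add_le_add_left ?_ _)
  have h3 : (Icc 1 D).sigma G ⊆ (Pr ×ˢ (Icc (1 : ℤ) M ×ˢ Icc 1 M)).image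
      fun q : (ℤ × ℕ) × (ℤ × ℕ) =>
        (⟨q.1.2 / q.2.2, q.1.1 - q.2.1 * ((q.1.2 / q.2.2 : ℕ) : ℤ) ^ k⟩ : Σ _ : ℕ, ℤ) := by
    rintro ⟨d, s⟩ hx
    rw [mem_sigma, hG, mem_filter, mem_Icc] at hx
    obtain ⟨hd, -, j, hj, m, hm, ha, hb⟩ := hx
    dsimp only at hd ha hb
    have hm1 := (mem_Icc.1 hm).1
    refine mem_image.2 ⟨((s + j * (d : ℤ) ^ k, m * d), (j, m)), mem_product.2 ⟨?_,
      mem_product.2 ⟨hj, hm⟩⟩, ?_⟩
    · rw [hPr, mem_filter, mem_product]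
      refine ⟨⟨ha, mem_Icc.2 ⟨Nat.mul_pos hm1 hd.1, ?_⟩⟩, hb⟩
      have h4 := mem_Icc.1 (hA ha)
      have h5 := mem_Icc.1 (hA hb)
      have h6 : ((m * d : ℕ) : ℤ) ≤ ((m * d : ℕ) : ℤ) ^ k :=
        le_self_pow₀ (by exact_mod_cast Nat.mul_pos hm1 hd.1) (by omega)
      have h7 : ((m * d : ℕ) : ℤ) ≤ N := by linarith
      exact_mod_cast h7
    · dsimp only
      rw [Nat.mul_div_cancel_left d hm1, add_sub_cancel_right]
  have h4 := (card_le_card h3).trans card_image_le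
  rw [card_product, card_product, Int.card_Icc, add_sub_cancel_right, Int.toNat_natCast,
    Nat.card_Icc, Nat.add_sub_cancel] at h4
  calc M * ((Icc 1 D).sigma G).card ≤ M * (Pr.card * (M * M)) := Nat.mul_le_mul_left _ h4
    _ = _ := by ring

end Vale.Agent.N042
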