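import Vale.Agent.N042.Core
import Vale.Agent.N042.Count

set_option autoImplicit false

/-!
P042: the uniform bound and the two counting forms, in plain terms.
-/

namespace Vale.Agent.N042

open Polynomial Finset Vale.Agent.P042

theorem card_le_rMax (h : ℤ[X]) (N : ℕ) (A : Finset ℤ) (hA : A ⊆ Icc (1 : ℤ) N)
    (hf : ∀ a ∈ A, ∀ b ∈ A, ∀ n : ℕ, 1 ≤ n → a - b = h.eval (n : ℤ) → a = b) :
    A.card ≤ rMax h N := by
  classical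
  unfold rMax
  refine Finset.le_sup (f := card) (mem_filter.2 ⟨mem_powerset.2 hA, ?_⟩)
  rintro y ⟨hy, n, hn, hny⟩
  obtain ⟨a, ha, b, hb, rfl⟩ := Set.mem_sub.1 hy
  exact sub_eq_zero.2 (hf a ha b hb n hn hny.symm)

/-- the uniform bound -/
theorem uniform (k : ℕ) (hk : 2 ≤ k) : ∃ c C : ℝ, ∃ K : ℕ, 0 < c ∧ c < 1 ∧ 0 < C ∧
    ∀ h : ℤ[X], h.natDegree = k → 0 < h.leadingCoeff →
      (∀ q : ℕ, 1 ≤ q → ∃ t : ℤ, (q : ℤ) ∣ h.eval t) → ∀ B : ℝ, (∀ j, |(h.coeff j : ℝ)| ≤ B) →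
      ∀ (N : ℕ) (A : Finset ℤ), A ⊆ Icc (1 : ℤ) N →
        (∀ a ∈ A, ∀ b ∈ A, ∀ n : ℕ, 1 ≤ n → a - b = h.eval (n : ℤ) → a = b) →
        (A.card : ℝ) ≤ C * B ^ K * (N : ℝ) ^ (1 - c) := by
  obtain ⟨c, C0, K, hc, hC0, H⟩ := final_height k hk
  refine ⟨min c (1 / 2), C0, K, lt_min hc (by norm_num),
    (min_le_right _ _).trans_lt (by norm_num), hC0, fun h hd hpos hint B hB N A hA hf => ?_⟩
  have hB0 : 0 ≤ B := (abs_nonneg _).trans (hB 0)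
  rcases Nat.eq_zero_or_pos N with rfl | hN
  · have : A = ∅ := by
      rw [← subset_empty]
      simpa using hA
    rw [this, card_empty, Nat.cast_zero]
    positivity
  have h1 := H h hd hpos hint ⌊B⌋₊ (fun j => by
    have h2 : (h.coeff j).natAbs ≤ ⌊B⌋₊ := Nat.le_floor (by
      rw [Nat.cast_natAbs, Int.cast_abs]
      exact hB j)
    rw [← Int.natCast_natAbs]
    exact_mod_cast h2) N hN
  have h2 : (A.card : ℝ) ≤ rMax h N := by exact_mod_cast card_le_rMax h N A hA hf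
  refine h2.trans (h1.trans ?_)
  have h3 : (N : ℝ) ^ (1 - c) ≤ (N : ℝ) ^ (1 - min c (1 / 2)) :=
    Real.rpow_le_rpow_of_exponent_le (by exact_mod_cast hN) (by linarith [min_le_left c (1 / 2)])
  have h4 : ((⌊B⌋₊ : ℕ) : ℝ) ≤ B := Nat.floor_le hB0
  gcongr

/-- from a bound for sets without differences to a count of the differences -/
theorem count_of_bound (h : ℤ[X]) (N : ℕ) (U : ℝ)
    (H : ∀ A : Finset ℤ, A ⊆ Icc (1 : ℤ) N →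
      (∀ a ∈ A, ∀ b ∈ A, ∀ n : ℕ, 1 ≤ n → a - b = h.eval (n : ℤ) → a = b) → (A.card : ℝ) ≤ U)
    (A : Finset ℤ) (hA : A ⊆ Icc (1 : ℤ) N) :
    (A.card : ℝ) ^ 2 ≤ 8 * U * (A.card + Set.ncard {p : ℤ × ℤ | p.1 ∈ A ∧ p.2 ∈ A ∧
      p.1 ≠ p.2 ∧ ∃ n : ℕ, 1 ≤ n ∧ p.1 - p.2 = h.eval (n : ℤ)}) := by
  classical
  obtain ⟨F, hF⟩ : ∃ F : ℤ → ℤ → Prop, ∀ a b, F a b ↔
    (a ≠ b ∧ ∃ n : ℕ, 1 ≤ n ∧ a - b = h.eval (n : ℤ)) := ⟨_, fun _ _ => Iff.rfl⟩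
  obtain ⟨I, hIA, hI, hc⟩ := exists_indep A F fun a ha => ((hF a a).1 ha).1 rfl
  have h1 := H I (hIA.trans hA) fun a ha b hb n hn hab => by
    by_contra hne
    exact hI a ha b hb ((hF a b).2 ⟨hne, n, hn, hab⟩)
  have h2 : {p : ℤ × ℤ | p.1 ∈ A ∧ p.2 ∈ A ∧ p.1 ≠ p.2 ∧
      ∃ n : ℕ, 1 ≤ n ∧ p.1 - p.2 = h.eval (n : ℤ)} =
      ((A ×ˢ A).filter fun p => F p.1 p.2 : Finset (ℤ × ℤ)) := by
    ext p
    simp only [Set.mem_ofPred_eq, coe_filter, mem_product, hF, and_assoc]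
  rw [h2, Set.ncard_coe_finset]
  have h3 : (A.card : ℝ) ^ 2 ≤
      8 * I.card * (A.card + ((A ×ˢ A).filter fun p => F p.1 p.2).card) := by exact_mod_cast hc
  refine h3.trans ?_
  gcongr

/-- the count for `k`-th powers, with the right power of `N` -/
theorem count_pow (k : ℕ) (hk : 1 ≤ k) (c C0 : ℝ) (hc : 0 < c) (hC0 : 0 < C0)
    (H : ∀ (N : ℕ) (A : Finset ℤ), A ⊆ Icc (1 : ℤ) N →
      (∀ a ∈ A, ∀ b ∈ A, ∀ n : ℕ, 1 ≤ n → a - b = (n : ℤ) ^ k → a = b) →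
      (A.card : ℝ) ≤ C0 * (N : ℝ) ^ (1 - c)) :
    ∃ C : ℝ, ∃ K : ℕ, 0 < C ∧ ∀ (N : ℕ) (A : Finset ℤ) (δ : ℝ), A ⊆ Icc (1 : ℤ) N → 0 < δ →
      δ * N ≤ A.card → C ≤ δ ^ K * N → δ ^ K * (N : ℝ) ^ (1 + 1 / (k : ℝ)) ≤
        C * Set.ncard {p : ℤ × ℕ | p.1 ∈ A ∧ 1 ≤ p.2 ∧ p.1 + (p.2 : ℤ) ^ k ∈ A} := by
  classical
  obtain ⟨K0, hK0⟩ : ∃ K0 : ℕ, K0 = ⌈1 / c⌉₊ := ⟨_, rfl⟩
  have hK0c : 1 ≤ K0 * c := by
    rw [← div_le_iff₀ hc, hK0]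
    exact Nat.le_ceil _
  obtain ⟨C1, hC1⟩ : ∃ x : ℝ, x = (4 * C0 + 1) ^ K0 := ⟨_, rfl⟩
  have hC11 : 1 ≤ C1 := by rw [hC1]; exact one_le_pow₀ (by linarith)
  refine ⟨4 * C1 ^ 3, 1 + 3 * K0, by positivity, fun N A δ hA hδ hcard hN => ?_⟩
  have hC13 : C1 ≤ 4 * C1 ^ 3 := by
    have := le_self_pow₀ hC11 (by norm_num : 3 ≠ 0)
    linarith
  have hN0 : (0 : ℝ) < N := by
    by_contra hcon
    have : (N : ℝ) = 0 := le_antisymm (not_lt.1 hcon) (Nat.cast_nonneg _)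
    rw [this, mul_zero] at hN
    linarith
  have hδ1 : δ ≤ 1 := by
    have h1 := card_le_card hA
    rw [Int.card_Icc, add_sub_cancel_right, Int.toNat_natCast] at h1
    have h2 : (A.card : ℝ) ≤ N := by exact_mod_cast h1
    nlinarith
  obtain ⟨t, ht⟩ : ∃ t : ℕ, t = ⌈4 * C0 / δ⌉₊ := ⟨_, rfl⟩
  have ht1 : 4 * C0 / δ ≤ t := by rw [ht]; exact Nat.le_ceil _
  have htp : (0 : ℝ) < t := lt_of_lt_of_le (by positivity) ht1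
  have ht0 : (1 : ℝ) ≤ t := by
    have : 0 < t := by exact_mod_cast htp
    exact_mod_cast this
  have ht2 : (t : ℝ) * δ ≤ 4 * C0 + 1 := by
    have h1 : (t : ℝ) < 4 * C0 / δ + 1 := by
      rw [ht]
      exact Nat.ceil_lt_add_one (by positivity)
    have h2 : (4 * C0 / δ + 1) * δ = 4 * C0 + δ := by field_simp
    nlinarith
  obtain ⟨M, hM⟩ : ∃ M : ℕ, M = t ^ K0 := ⟨_, rfl⟩
  have hMr : (M : ℝ) = (t : ℝ) ^ K0 := by rw [hM]; push_cast; rfl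
  have hM1 : (1 : ℝ) ≤ M := by rw [hMr]; exact one_le_pow₀ ht0
  have hM0 : (0 : ℝ) < M := by linarith
  have hMδ : (M : ℝ) * δ ^ K0 ≤ C1 := by
    rw [hMr, ← mul_pow, hC1]
    exact pow_le_pow_left₀ (by positivity) ht2 _
  have hMN : (M : ℝ) ≤ N := by
    have h1 : δ ^ (1 + 3 * K0) ≤ δ ^ K0 := pow_le_pow_of_le_one hδ.le hδ1 (by omega)
    have h2 : (M : ℝ) * δ ^ K0 ≤ N * δ ^ K0 := by nlinarith
    exact le_of_mul_le_mul_right h2 (by positivity)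
  have hMc : C0 * (M : ℝ) ^ (1 - c) ≤ δ * M / 4 := by
    have h1 : (t : ℝ) ≤ (M : ℝ) ^ c := by
      rw [hMr, ← Real.rpow_natCast, ← Real.rpow_mul htp.le]
      exact Real.self_le_rpow_of_one_le ht0 hK0c
    rw [Real.rpow_sub hM0, Real.rpow_one]
    have h2 : (M : ℝ) / (M : ℝ) ^ c ≤ M / t := div_le_div_of_nonneg_left hM0.le htp h1
    have h3 : C0 * (M / t) ≤ δ * M / 4 := by
      rw [div_le_iff₀ hδ] at ht1
      rw [← mul_div_assoc, div_le_div_iff₀ htp (by norm_num)]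
      nlinarith
    exact (mul_le_mul_of_nonneg_left h2 hC0.le).trans h3
  obtain ⟨x, hx⟩ : ∃ x : ℝ, x = ((N : ℝ) / M) ^ (1 / (k : ℝ)) := ⟨_, rfl⟩
  have hk0 : (0 : ℝ) < k := by exact_mod_cast hk
  have hx1 : 1 ≤ x := by
    rw [hx]
    exact Real.one_le_rpow ((one_le_div hM0).2 hMN) (by positivity)
  have hxk : x ^ k = N / M := by
    rw [hx, one_div]
    exact Real.rpow_inv_natCast_pow (by positivity) (by omega)
  obtain ⟨D, hD⟩ : ∃ D : ℕ, D = ⌊x⌋₊ := ⟨_, rfl⟩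
  have hD1 : (D : ℝ) ≤ x := by rw [hD]; exact Nat.floor_le (by linarith)
  have hD2 : x ≤ 2 * D := by
    have h1 : x < D + 1 := by rw [hD]; exact Nat.lt_floor_add_one x
    have h2 : 1 ≤ D := by rw [hD]; exact Nat.le_floor (by exact_mod_cast hx1)
    have h3 : (1 : ℝ) ≤ D := by exact_mod_cast h2
    linarith
  have hDM : D ^ k * M ≤ N := by
    have h1 : (D : ℝ) ^ k ≤ N / M := hxk ▸ pow_le_pow_left₀ (Nat.cast_nonneg _) hD1 k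
    rw [le_div_iff₀ hM0] at h1
    exact_mod_cast h1
  have h1 := count_pairs k ⌊δ * M / 4⌋₊ M N D hk A hA
    (fun B hB hf => Nat.le_floor ((H M B hB hf).trans hMc)) hDM
  have h2 : {p : ℤ × ℕ | p.1 ∈ A ∧ 1 ≤ p.2 ∧ p.1 + (p.2 : ℤ) ^ k ∈ A} =
      ((A ×ˢ Icc 1 N).filter fun p : ℤ × ℕ => p.1 + (p.2 : ℤ) ^ k ∈ A : Finset (ℤ × ℕ)) := by
    ext p
    simp only [Set.mem_ofPred_eq, coe_filter, mem_product, mem_Icc]
    refine ⟨fun ⟨ha, hn, hb⟩ => ⟨⟨ha, hn, ?_⟩, hb⟩, fun ⟨⟨ha, hn, _⟩, hb⟩ => ⟨ha, hn, hb⟩⟩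
    have h4 := mem_Icc.1 (hA ha)
    have h5 := mem_Icc.1 (hA hb)
    have h6 : (p.2 : ℤ) ≤ (p.2 : ℤ) ^ k := le_self_pow₀ (by exact_mod_cast hn) (by omega)
    have h7 : (p.2 : ℤ) ≤ N := by linarith
    exact_mod_cast h7
  rw [h2, Set.ncard_coe_finset]
  obtain ⟨Q, hQ⟩ : ∃ Q : ℕ, Q = ((A ×ˢ Icc 1 N).filter
    fun p : ℤ × ℕ => p.1 + (p.2 : ℤ) ^ k ∈ A).card := ⟨_, rfl⟩
  rw [← hQ] at h1 ⊢
  have h3 : (D : ℝ) * (M * A.card) ≤ D * (2 * N * (⌊δ * M / 4⌋₊ : ℕ)) + (M : ℝ) ^ 3 * Q := by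
    exact_mod_cast h1
  have h4 : ((⌊δ * M / 4⌋₊ : ℕ) : ℝ) ≤ δ * M / 4 := Nat.floor_le (by positivity)
  have hD0 : (0 : ℝ) ≤ D := Nat.cast_nonneg _
  have h5 : (D : ℝ) * (M * (δ * N)) ≤ D * (2 * N * (δ * M / 4)) + (M : ℝ) ^ 3 * Q := by
    refine le_trans ?_ (h3.trans ?_)
    · gcongr
    · gcongr
  have h6 : (M : ℝ) * (D * δ * N) ≤ M * (2 * (M : ℝ) ^ 2 * Q) := by nlinarith
  have h7 : (D : ℝ) * δ * N ≤ 2 * (M : ℝ) ^ 2 * Q := le_of_mul_le_mul_left h6 hM0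
  have h8 : (N : ℝ) ^ (1 + 1 / (k : ℝ)) ≤ N * (x * M) := by
    rw [Real.rpow_add hN0, Real.rpow_one]
    refine mul_le_mul_of_nonneg_left ?_ hN0.le
    have h9 : (N : ℝ) = N / M * M := by field_simp
    have h10 : (M : ℝ) ^ (1 / (k : ℝ)) ≤ M := by
      refine Real.rpow_le_self_of_one_le hM1 ?_
      rw [div_le_one hk0]
      exact_mod_cast hk
    calc (N : ℝ) ^ (1 / (k : ℝ)) = ((N : ℝ) / M * M) ^ (1 / (k : ℝ)) := by rw [← h9]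
      _ = x * (M : ℝ) ^ (1 / (k : ℝ)) := by rw [Real.mul_rpow (by positivity) hM0.le, hx]
      _ ≤ x * M := mul_le_mul_of_nonneg_left h10 (by linarith)
  have hQ0 : (0 : ℝ) ≤ Q := Nat.cast_nonneg _
  calc δ ^ (1 + 3 * K0) * (N : ℝ) ^ (1 + 1 / (k : ℝ))
      ≤ δ ^ (1 + 3 * K0) * (N * (2 * D * M)) := by
        refine mul_le_mul_of_nonneg_left (h8.trans ?_) (by positivity)
        gcongr
    _ = 2 * (δ ^ K0) ^ 3 * M * (D * δ * N) := by ring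
    _ ≤ 2 * (δ ^ K0) ^ 3 * M * (2 * (M : ℝ) ^ 2 * Q) := by gcongr
    _ = 4 * (M * δ ^ K0) ^ 3 * Q := by ring
    _ ≤ 4 * C1 ^ 3 * Q := by gcongr

/-- Q1 as posed -/
theorem part1 (h : ℤ[X]) (hd : 2 ≤ h.natDegree) (hpos : 0 < h.leadingCoeff)
    (hint : ∀ q : ℕ, 1 ≤ q → ∃ t : ℤ, (q : ℤ) ∣ h.eval t) :
    ∃ c C : ℝ, 0 < c ∧ ∀ (N : ℕ) (A : Finset ℤ), A ⊆ Icc (1 : ℤ) N →
      (∀ a ∈ A, ∀ b ∈ A, ∀ n : ℕ, 1 ≤ n → a - b = h.eval (n : ℤ) → a = b) →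
      (A.card : ℝ) ≤ C * (N : ℝ) ^ (1 - c) := by
  obtain ⟨c, C, K, hc, -, -, H⟩ := uniform h.natDegree hd
  refine ⟨c, C * (∑ i ∈ range (h.natDegree + 1), |(h.coeff i : ℝ)|) ^ K, hc,
    H h rfl hpos hint _ fun j => ?_⟩
  by_cases hj : j ≤ h.natDegree
  · exact single_le_sum (f := fun i => |(h.coeff i : ℝ)|) (fun i _ => abs_nonneg _)
      (mem_range.2 (by omega))
  · rw [coeff_eq_zero_of_natDegree_lt (by omega), Int.cast_zero, abs_zero]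
    exact sum_nonneg fun i _ => abs_nonneg _

/-- the uniform bound and the count -/
theorem part2 (k : ℕ) (hk : 2 ≤ k) : ∃ c C : ℝ, ∃ K : ℕ, 0 < c ∧ 0 < C ∧
    ∀ h : ℤ[X], h.natDegree = k → 0 < h.leadingCoeff →
      (∀ q : ℕ, 1 ≤ q → ∃ t : ℤ, (q : ℤ) ∣ h.eval t) → ∀ B : ℝ, (∀ j, |(h.coeff j : ℝ)| ≤ B) →
      ∀ (N : ℕ) (A : Finset ℤ), A ⊆ Icc (1 : ℤ) N →
        ((∀ a ∈ A, ∀ b ∈ A, ∀ n : ℕ, 1 ≤ n → a - b = h.eval (n : ℤ) → a = b) →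
          (A.card : ℝ) ≤ C * B ^ K * (N : ℝ) ^ (1 - c)) ∧
        (A.card : ℝ) ^ 2 ≤ C * B ^ K * (N : ℝ) ^ (1 - c) *
          (A.card + Set.ncard {p : ℤ × ℤ | p.1 ∈ A ∧ p.2 ∈ A ∧
            p.1 ≠ p.2 ∧ ∃ n : ℕ, 1 ≤ n ∧ p.1 - p.2 = h.eval (n : ℤ)}) := by
  obtain ⟨c, C, K, hc, -, hC, H⟩ := uniform k hk
  refine ⟨c, 8 * C, K, hc, by positivity, fun h hd hpos hint B hB N A hA => ⟨fun hf => ?_, ?_⟩⟩
  · have hB0 : 0 ≤ B := (abs_nonneg _).trans (hB 0)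
    refine (H h hd hpos hint B hB N A hA hf).trans ?_
    gcongr
    linarith
  · refine (count_of_bound h N _ (H h hd hpos hint B hB N) A hA).trans (le_of_eq ?_)
    ring

/-- the count for `k`-th powers -/
theorem part3 (k : ℕ) (hk : 2 ≤ k) :
    ∃ C : ℝ, ∃ K : ℕ, 0 < C ∧ ∀ (N : ℕ) (A : Finset ℤ) (δ : ℝ), A ⊆ Icc (1 : ℤ) N → 0 < δ →
      δ * N ≤ A.card → C ≤ δ ^ K * N → δ ^ K * (N : ℝ) ^ (1 + 1 / (k : ℝ)) ≤
        C * Set.ncard {p : ℤ × ℕ | p.1 ∈ A ∧ 1 ≤ p.2 ∧ p.1 + (p.2 : ℤ) ^ k ∈ A} := by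
  obtain ⟨c, C, K, hc, -, hC, H⟩ := uniform k hk
  refine count_pow k (by omega) c C hc hC fun N A hA hf => ?_
  have h1 := H (X ^ k) (natDegree_X_pow k) (by rw [leadingCoeff_X_pow]; exact one_pos)
    (fun q _ => ⟨0, by rw [eval_pow, eval_X, zero_pow (by omega)]; exact dvd_zero _⟩) 1
    (fun j => by
      rw [coeff_X_pow]
      split_ifs <;> simp) N A hA (by simpa only [eval_pow, eval_X] using hf)
  rwa [one_pow, mul_one] at h1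

end Vale.Agent.N042
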