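import Vale.Agent.P042.Bdl.B1
import Mathlib.NumberTheory.MahlerMeasure
import Mathlib.LinearAlgebra.Matrix.AbsoluteValue

set_option autoImplicit false

/-!
P042, constants uniform in the polynomial: the size of the integer that controls the leading
Taylor coefficient at all `p`-adic roots, in terms of the degree and of the height.
-/

namespace Vale.Agent.N042

open Polynomial Vale.Agent.P042

/-- Mignotte's bound: the coefficients of a factor -/
theorem factor_coeff_le (h f : ℤ[X]) (hh : h ≠ 0) (hf : f ∣ h) (k B : ℕ) (hk : h.natDegree ≤ k)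
    (hB : ∀ j, |h.coeff j| ≤ B) (j : ℕ) : |f.coeff j| ≤ ((2 ^ k * (k + 1) * B : ℕ) : ℤ) := by
  obtain ⟨g, hg⟩ := hf
  have hg0 : g ≠ 0 := by
    rintro rfl
    exact hh (by rw [hg, mul_zero])
  have hfd : f.natDegree ≤ k := (natDegree_le_of_dvd ⟨g, hg⟩ hh).trans hk
  have h1 := norm_coeff_le_choose_mul_mahlerMeasure_of_one_le_mahlerMeasure j
    (f.map (Int.castRingHom ℂ)) (g.map (Int.castRingHom ℂ)) (one_le_mahlerMeasure_of_ne_zero hg0)
  rw [← Polynomial.map_mul, ← hg, natDegree_map_eq_of_injective (RingHom.injective_int _),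
    coeff_map, eq_intCast, Complex.norm_intCast] at h1
  have h2 := mahlerMeasure_le_sum_norm_coeff (h.map (Int.castRingHom ℂ))
  have h3 : ((h.map (Int.castRingHom ℂ)).sum fun _ a => ‖a‖) ≤ (k + 1 : ℝ) * B := by
    rw [Polynomial.sum_over_range' _ (by intro n; exact norm_zero) (k + 1)
      (by rw [natDegree_map_eq_of_injective (RingHom.injective_int _)]; omega)]
    refine (Finset.sum_le_card_nsmul _ _ (B : ℝ) fun i _ => ?_).trans ?_
    · rw [coeff_map, eq_intCast, Complex.norm_intCast]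
      exact_mod_cast hB i
    · rw [Finset.card_range, nsmul_eq_mul]
      push_cast
      exact le_rfl
  have h4 : ((f.natDegree.choose j : ℕ) : ℝ) ≤ 2 ^ k := by
    have h5 : f.natDegree.choose j ≤ 2 ^ k :=
      (Nat.choose_le_two_pow _ _).trans (Nat.pow_le_pow_right (by norm_num) hfd)
    exact_mod_cast h5
  have h6 : |(f.coeff j : ℝ)| ≤ 2 ^ k * ((k + 1 : ℝ) * B) :=
    h1.trans (mul_le_mul h4 (h2.trans h3) (mahlerMeasure_nonneg _) (by positivity))
  have h7 : ((|f.coeff j| : ℤ) : ℝ) ≤ (((2 ^ k * (k + 1) * B : ℕ) : ℤ) : ℝ) := by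
    push_cast
    linarith
  exact_mod_cast h7

/-- the size of a resultant -/
theorem resultant_le (f g : ℤ[X]) (k W : ℕ) (hW : 1 ≤ W) (hf : f.natDegree ≤ k)
    (hg : g.natDegree ≤ k) (h1 : ∀ j, |f.coeff j| ≤ W) (h2 : ∀ j, |g.coeff j| ≤ W) :
    |resultant f g| ≤ (((2 * k).factorial * W ^ (2 * k) : ℕ) : ℤ) := by
  have h3 : ∀ i j, AbsoluteValue.abs (sylvester f g f.natDegree g.natDegree i j) ≤ (W : ℤ) := by
    intro i j
    rw [AbsoluteValue.abs_apply, sylvester, Matrix.of_apply]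
    refine Fin.addCases (fun j => ?_) (fun j => ?_) j
    · rw [Fin.addCases_left]
      split_ifs
      · exact h2 _
      · simp
    · rw [Fin.addCases_right]
      split_ifs
      · exact h1 _
      · simp
  have h4 := Matrix.det_le h3
  rw [AbsoluteValue.abs_apply, Fintype.card_fin, nsmul_eq_mul] at h4
  refine h4.trans ?_
  have h5 : f.natDegree + g.natDegree ≤ 2 * k := by omega
  have h6 : (f.natDegree + g.natDegree).factorial * W ^ (f.natDegree + g.natDegree) ≤
      (2 * k).factorial * W ^ (2 * k) :=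
    Nat.mul_le_mul (Nat.factorial_le h5) (Nat.pow_le_pow_right hW h5)
  exact_mod_cast h6

/-- integral Bezout identity, with the resultant -/
theorem bezout (f g : ℤ[X]) (hf : f.natDegree ≠ 0)
    (hc : IsCoprime (f.map (Int.castRingHom ℚ)) (g.map (Int.castRingHom ℚ))) :
    resultant f g ≠ 0 ∧ ∃ U V : ℤ[X], f * U + g * V = C (resultant f g) := by
  obtain ⟨U, V, -, -, h⟩ := exists_mul_add_mul_eq_C_resultant f g le_rfl le_rfl (Or.inl hf)
  refine ⟨?_, U, V, h⟩
  intro h0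
  have h1 := resultant_map_map f g f.natDegree g.natDegree (Int.castRingHom ℚ)
  rw [h0, map_zero] at h1
  have h2 : resultant (f.map (Int.castRingHom ℚ)) (g.map (Int.castRingHom ℚ)) = 0 := by
    rw [← h1]
    congr 1
    · exact natDegree_map_eq_of_injective (RingHom.injective_int _) f
    · exact natDegree_map_eq_of_injective (RingHom.injective_int _) g
  exact (resultant_eq_zero_iff.1 h2).2 hc

/-- the bound for all resultants that occur -/
def Z (k B : ℕ) : ℕ := (2 * k).factorial * ((k + 1) * (2 ^ k * (k + 1) * B)) ^ (2 * k)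

theorem Z_pos (k B : ℕ) (hB : 1 ≤ B) : 1 ≤ Z k B := by
  unfold Z
  exact Nat.mul_pos (Nat.factorial_pos _) (pow_pos (by positivity) _)

/-- one irreducible factor -/
theorem factor_q (h : ℤ[X]) (hh : h ≠ 0) (k B : ℕ) (hk : h.natDegree ≤ k) (hB1 : 1 ≤ B)
    (hB : ∀ j, |h.coeff j| ≤ B) (f : ℤ[X]) (hf : Irreducible f)
    (hfd : f.natDegree ≠ 0) (hfh : f ∣ h) :
    ∃ R : ℤ, R ≠ 0 ∧ |R| ≤ (Z k B : ℤ) ^ (k + 1) ∧ ∀ (p : ℕ) [Fact p.Prime] (z : ℤ_[p]),
      (f.map (Int.castRingHom ℤ_[p])).eval z = 0 →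
      ∃ m : ℕ, 1 ≤ m ∧ m ≤ h.natDegree ∧ ∃ G : ℤ_[p][X],
        taylor z (h.map (Int.castRingHom ℤ_[p])) = X ^ m * G ∧ G.coeff 0 ∣ (R : ℤ_[p]) := by
  obtain ⟨e, g, hg, hfg⟩ : ∃ (e : ℕ) (g : ℤ[X]), h = f ^ e * g ∧ ¬ f ∣ g :=
    ⟨_, (FiniteMultiplicity.of_not_isUnit hf.not_isUnit hh).exists_eq_pow_mul_and_not_dvd⟩
  have he : 1 ≤ e := by
    rcases Nat.eq_zero_or_pos e with h0 | h0
    · subst h0
      rw [pow_zero, one_mul] at hg
      exact absurd (hg ▸ hfh) hfg
    · exact h0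
  have hprim : f.IsPrimitive := hf.isPrimitive hfd
  have hfQ : Irreducible (f.map (Int.castRingHom ℚ)) :=
    (IsPrimitive.Int.irreducible_iff_irreducible_map_cast hprim).1 hf
  have hcop1 : IsCoprime (f.map (Int.castRingHom ℚ)) (g.map (Int.castRingHom ℚ)) := by
    rw [hfQ.coprime_iff_not_dvd]
    intro hd
    exact hfg ((IsPrimitive.Int.dvd_iff_map_cast_dvd_map_cast f g hprim).2 hd)
  have hcop2 : IsCoprime (f.map (Int.castRingHom ℚ))
      ((derivative f).map (Int.castRingHom ℚ)) := by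
    have := hfQ.separable
    rwa [Polynomial.Separable, derivative_map] at this
  obtain ⟨hc1, U1, V1, h1⟩ := bezout f g hfd hcop1
  obtain ⟨hc2, U2, V2, h2⟩ := bezout f _ hfd hcop2
  have hdeg : e ≤ h.natDegree := by
    have hg0 : g ≠ 0 := by
      rintro rfl
      exact hh (by rw [hg, mul_zero])
    have hf0 : f ≠ 0 := hf.ne_zero
    rw [hg, natDegree_mul (pow_ne_zero _ hf0) hg0, natDegree_pow]
    have : 1 ≤ f.natDegree := Nat.one_le_iff_ne_zero.2 hfd
    nlinarith only [this]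
  have hgh : g ∣ h := ⟨f ^ e, by rw [hg, mul_comm]⟩
  have hfk : f.natDegree ≤ k := (natDegree_le_of_dvd hfh hh).trans hk
  have hgk : g.natDegree ≤ k := (natDegree_le_of_dvd hgh hh).trans hk
  obtain ⟨W0, hW0⟩ : ∃ W0 : ℕ, W0 = 2 ^ k * (k + 1) * B := ⟨_, rfl⟩
  have hW01 : 1 ≤ W0 := by
    rw [hW0]
    exact Nat.mul_pos (by positivity) hB1
  have hle : (W0 : ℤ) ≤ (((k + 1) * W0 : ℕ) : ℤ) := by
    have : W0 ≤ (k + 1) * W0 := Nat.le_mul_of_pos_left _ (by omega)
    exact_mod_cast this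
  have hfW : ∀ j, |f.coeff j| ≤ (W0 : ℤ) := fun j => hW0 ▸ factor_coeff_le h f hh hfh k B hk hB j
  have hgW : ∀ j, |g.coeff j| ≤ (W0 : ℤ) := fun j => hW0 ▸ factor_coeff_le h g hh hgh k B hk hB j
  have hdW : ∀ j, |(derivative f).coeff j| ≤ (((k + 1) * W0 : ℕ) : ℤ) := by
    intro j
    rw [coeff_derivative]
    by_cases hj : j + 1 ≤ k
    · rw [abs_mul, mul_comm, Nat.cast_mul]
      refine mul_le_mul ?_ (hfW _) (abs_nonneg _) (by positivity)
      rw [abs_of_nonneg (by positivity)]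
      push_cast
      have : (j : ℤ) + 1 ≤ k := by exact_mod_cast hj
      linarith
    · rw [coeff_eq_zero_of_natDegree_lt (by omega), zero_mul, abs_zero]
      positivity
  have hW1 : 1 ≤ (k + 1) * W0 := Nat.mul_pos (by omega) hW01
  have hb1 : |resultant f g| ≤ (Z k B : ℤ) := by
    have := resultant_le f g k _ hW1 hfk hgk (fun j => (hfW j).trans hle)
      (fun j => (hgW j).trans hle)
    rwa [hW0] at this
  have hb2 : |resultant f (derivative f)| ≤ (Z k B : ℤ) := by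
    have := resultant_le f (derivative f) k _ hW1 hfk
      ((natDegree_derivative_le f).trans (by omega)) (fun j => (hfW j).trans hle) hdW
    rwa [hW0] at this
  obtain ⟨c1, hc1e⟩ : ∃ c, c = resultant f g := ⟨_, rfl⟩
  obtain ⟨c2, hc2e⟩ : ∃ c, c = resultant f (derivative f) := ⟨_, rfl⟩
  rw [← hc1e] at hc1 h1 hb1
  rw [← hc2e] at hc2 h2 hb2
  have hZ : (1 : ℤ) ≤ Z k B := by exact_mod_cast Z_pos k B hB1
  refine ⟨c2 ^ e * c1, mul_ne_zero (pow_ne_zero _ hc2) hc1, ?_, ?_⟩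
  · rw [abs_mul, abs_pow, pow_succ]
    refine mul_le_mul ?_ hb1 (abs_nonneg _) (by positivity)
    exact (pow_le_pow_left₀ (abs_nonneg _) hb2 e).trans (pow_le_pow_right₀ hZ (hdeg.trans hk))
  intro p _ z hz
  have hX : X ∣ taylor z (f.map (Int.castRingHom ℤ_[p])) := by
    rw [X_dvd_iff, taylor_coeff_zero, hz]
  obtain ⟨F1, hF1⟩ := hX
  have hF10 : F1.coeff 0 = ((derivative f).map (Int.castRingHom ℤ_[p])).eval z := by
    have := taylor_coeff_one z (f.map (Int.castRingHom ℤ_[p]))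
    rw [hF1, mul_comm, coeff_mul_X] at this
    rw [this, derivative_map]
  refine ⟨e, he, hdeg, F1 ^ e * taylor z (g.map (Int.castRingHom ℤ_[p])), ?_, ?_⟩
  · rw [hg, Polynomial.map_mul, Polynomial.map_pow, taylor_mul, taylor_pow, hF1, mul_pow,
      mul_assoc]
  · have hd2 : ((derivative f).map (Int.castRingHom ℤ_[p])).eval z ∣ (c2 : ℤ_[p]) := by
      have h3 := congrArg (fun q : ℤ[X] => (q.map (Int.castRingHom ℤ_[p])).eval z) h2
      simp only [Polynomial.map_add, Polynomial.map_mul, eval_add, eval_mul, map_C, eval_C,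
        hz, zero_mul, zero_add] at h3
      exact ⟨_, by simpa only [eq_intCast] using h3.symm⟩
    have hd1 : (g.map (Int.castRingHom ℤ_[p])).eval z ∣ (c1 : ℤ_[p]) := by
      have h3 := congrArg (fun q : ℤ[X] => (q.map (Int.castRingHom ℤ_[p])).eval z) h1
      simp only [Polynomial.map_add, Polynomial.map_mul, eval_add, eval_mul, map_C, eval_C,
        hz, zero_mul, zero_add] at h3
      exact ⟨_, by simpa only [eq_intCast] using h3.symm⟩
    have hc : (F1 ^ e * taylor z (g.map (Int.castRingHom ℤ_[p]))).coeff 0 =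
        (((derivative f).map (Int.castRingHom ℤ_[p])).eval z) ^ e *
          (g.map (Int.castRingHom ℤ_[p])).eval z := by
      rw [mul_coeff_zero, taylor_coeff_zero, ← hF10]
      congr 1
      simp [coeff_zero_eq_eval_zero]
    rw [hc]
    push_cast
    exact mul_dvd_mul (pow_dvd_pow_of_dvd hd2 e) hd1

/-- `R` controls the leading Taylor coefficient of `h` at every `p`-adic root -/
def RootCtl (h : ℤ[X]) (R : ℤ) : Prop :=
  ∀ (p : ℕ) [Fact p.Prime] (z : ℤ_[p]), (h.map (Int.castRingHom ℤ_[p])).eval z = 0 →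
    ∃ m : ℕ, 1 ≤ m ∧ m ≤ h.natDegree ∧ ∃ G : ℤ_[p][X],
      taylor z (h.map (Int.castRingHom ℤ_[p])) = X ^ m * G ∧ G.coeff 0 ∣ (R : ℤ_[p])

/-- the controlling integer has polynomial size in the height -/
theorem root_q (h : ℤ[X]) (hh : h ≠ 0) (k B : ℕ) (hk : h.natDegree ≤ k) (hB1 : 1 ≤ B)
    (hB : ∀ j, |h.coeff j| ≤ B) :
    ∃ R : ℤ, R ≠ 0 ∧ |R| ≤ (Z k B : ℤ) ^ ((k + 1) * k) ∧ RootCtl h R := by
  classical
  have hZ : (1 : ℤ) ≤ Z k B := by exact_mod_cast Z_pos k B hB1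
  have H : ∀ f : ℤ[X], ∃ R : ℤ, R ≠ 0 ∧ |R| ≤ ((Z k B : ℤ) ^ (k + 1)) ^ f.natDegree ∧
      (Irreducible f → f.natDegree ≠ 0 → f ∣ h →
      ∀ (p : ℕ) [Fact p.Prime] (z : ℤ_[p]),
      (f.map (Int.castRingHom ℤ_[p])).eval z = 0 →
      ∃ m : ℕ, 1 ≤ m ∧ m ≤ h.natDegree ∧ ∃ G : ℤ_[p][X],
        taylor z (h.map (Int.castRingHom ℤ_[p])) = X ^ m * G ∧ G.coeff 0 ∣ (R : ℤ_[p])) := by
    intro f
    by_cases hf : Irreducible f ∧ f.natDegree ≠ 0 ∧ f ∣ h
    · obtain ⟨R, hR, hRb, hR'⟩ := factor_q h hh k B hk hB1 hB f hf.1 hf.2.1 hf.2.2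
      exact ⟨R, hR, hRb.trans (le_self_pow₀ (one_le_pow₀ hZ) hf.2.1), fun _ _ _ => hR'⟩
    · refine ⟨1, one_ne_zero, ?_, fun h1 h2 h3 => absurd ⟨h1, h2, h3⟩ hf⟩
      rw [abs_one]
      exact one_le_pow₀ (one_le_pow₀ hZ)
  choose Rf hR0 hRb hR using H
  have hassoc := UniqueFactorizationMonoid.factors_prod hh
  refine ⟨∏ f ∈ (UniqueFactorizationMonoid.factors h).toFinset, Rf f,
    Finset.prod_ne_zero_iff.2 fun f _ => hR0 f, ?_, ?_⟩
  · rw [Finset.abs_prod]
    refine (Finset.prod_le_prod (fun f _ => abs_nonneg _) fun f _ => hRb f).trans ?_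
    rw [Finset.prod_pow_eq_pow_sum, pow_mul]
    refine pow_le_pow_right₀ (one_le_pow₀ hZ) ?_
    have h1 : ∏ f ∈ (UniqueFactorizationMonoid.factors h).toFinset, f ∣ h :=
      (Multiset.toFinset_prod_dvd_prod _).trans hassoc.dvd
    rw [← natDegree_prod _ _ fun f hf => (UniqueFactorizationMonoid.irreducible_of_factor f
      (Multiset.mem_toFinset.1 hf)).ne_zero]
    exact (natDegree_le_of_dvd h1 hh).trans hk
  intro p _ z hz
  have hz' : ((UniqueFactorizationMonoid.factors h).prod.map (Int.castRingHom ℤ_[p])).eval z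
      = 0 := by
    obtain ⟨q, hq⟩ := hassoc.symm.dvd
    rw [hq, Polynomial.map_mul, eval_mul, hz, zero_mul]
  have hz2 : ((UniqueFactorizationMonoid.factors h).map
      (fun f : ℤ[X] => (f.map (Int.castRingHom ℤ_[p])).eval z)).prod = 0 := by
    rw [← hz']
    have := Multiset.prod_hom (UniqueFactorizationMonoid.factors h)
      ((evalRingHom z).comp (mapRingHom (Int.castRingHom ℤ_[p])))
    simpa only [RingHom.coe_comp, coe_evalRingHom, coe_mapRingHom, Function.comp_apply] using this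
  rw [Multiset.prod_eq_zero_iff, Multiset.mem_map] at hz2
  obtain ⟨f, hf, hfz⟩ := hz2
  have hirr := UniqueFactorizationMonoid.irreducible_of_factor f hf
  have hdvd := UniqueFactorizationMonoid.dvd_of_mem_factors hf
  have hdeg : f.natDegree ≠ 0 := by
    intro h0
    obtain ⟨c, hc⟩ := natDegree_eq_zero.1 h0
    have hc0 : c ≠ 0 := by
      rintro rfl
      exact hirr.ne_zero (by rw [← hc, C_0])
    rw [← hc, map_C, eval_C] at hfz
    exact hc0 (by simpa only [eq_intCast, Int.cast_eq_zero] using hfz)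
  obtain ⟨m, hm1, hm2, G, hG, hGR⟩ := hR f hirr hdeg hdvd p z hfz
  refine ⟨m, hm1, hm2, G, hG, hGR.trans ?_⟩
  have : Rf f ∣ ∏ f ∈ (UniqueFactorizationMonoid.factors h).toFinset, Rf f :=
    Finset.dvd_prod_of_mem _ (Multiset.mem_toFinset.2 hf)
  exact Int.cast_dvd_cast _ _ this

end Vale.Agent.N042
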